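import Vale.Agent.P015.H542.LS
import Vale.Agent.P015.Cx.Mertens

/-! Good primes and the prime `k`-tuple bound. -/

namespace Vale.Agent.P015.H542

open Finset Vale.Agent.P015 Vale.Agent.P015.Cx

/-- Lower bound for elementary symmetric sums. -/
theorem esy_ge (P : Finset ℕ) (g : ℕ → ℝ) {c : ℝ} (hc : 0 ≤ c) (hg : ∀ p ∈ P, c ≤ g p) {r : ℕ}
    (hr1 : 1 ≤ r) {n : ℝ} (hn : n ≤ P.card) (hrn : 2 * (r : ℝ) ≤ n) :
    (n * c / (2 * r)) ^ r ≤ esy P g r := by
  have hr0 : (0 : ℝ) < r := by exact_mod_cast hr1
  have hn0 : 0 ≤ n := by linarith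
  have h1 : ((P.card.choose r : ℕ) : ℝ) * c ^ r ≤ esy P g r := by
    unfold esy
    rw [← Finset.card_powersetCard, ← nsmul_eq_mul, ← Finset.sum_const]
    refine Finset.sum_le_sum fun A hA => ?_
    rw [Finset.mem_powersetCard] at hA
    calc c ^ r = ∏ _p ∈ A, c := by rw [Finset.prod_const, hA.2]
      _ ≤ _ := Finset.prod_le_prod (fun _ _ => hc) fun p hp => hg p (hA.1 hp)
  refine le_trans ?_ h1
  have h2 : (n / (2 * r)) ^ r ≤ ((P.card.choose r : ℕ) : ℝ) := by
    have h3 := Nat.pow_le_choose (α := ℝ) r P.card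
    refine le_trans ?_ h3
    have hrN : r ≤ P.card := by
      have : (r : ℝ) ≤ P.card := by linarith
      exact_mod_cast this
    have h4 : ((P.card + 1 - r : ℕ) : ℝ) = (P.card : ℝ) + 1 - r := by
      rw [Nat.cast_sub (by omega)]; push_cast; ring
    rw [h4]
    have h5 : (r.factorial : ℝ) ≤ (r : ℝ) ^ r := by exact_mod_cast Nat.factorial_le_pow r
    have h6 : (0 : ℝ) < r.factorial := by exact_mod_cast r.factorial_pos
    rw [div_pow, le_div_iff₀ h6]
    have h7 : n / 2 ≤ (P.card : ℝ) + 1 - r := by linarith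
    calc n ^ r / (2 * (r : ℝ)) ^ r * r.factorial ≤ n ^ r / (2 * (r : ℝ)) ^ r * (r : ℝ) ^ r :=
          mul_le_mul_of_nonneg_left h5 (by positivity)
      _ = (n / 2) ^ r := by
          rw [mul_pow, div_pow]
          have : (r : ℝ) ^ r ≠ 0 := by positivity
          field_simp
      _ ≤ _ := pow_le_pow_left₀ (by positivity) h7 r
  calc (n * c / (2 * r)) ^ r = (n / (2 * r)) ^ r * c ^ r := by rw [← mul_pow]; ring
    _ ≤ _ := mul_le_mul_of_nonneg_right h2 (by positivity)

/-- Few primes see fewer than half of the residues of a set of small diameter. -/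
theorem bad_primes (P : Finset ℕ) (hP : ∀ p ∈ P, p.Prime ∧ p % 4 = 1) {M : ℕ} (hM : 2 ≤ M)
    (hPM : ∀ p ∈ P, M < p) (D : Finset GaussianInt) (hD : D.Nonempty) {B : ℝ} (hB : 1 ≤ B)
    (hdiam : ∀ z ∈ D, ∀ w ∈ D, ((z - w).norm : ℝ) ≤ B) :
    (((P.filter (fun p => 2 * (D.image (phi p (root p true))).card < D.card)).card : ℕ) : ℝ) *
      Real.log M ≤ D.card * Real.log B := by
  classical
  set k : ℕ := D.card with hk
  have hk1 : 1 ≤ k := hD.card_pos
  have hkR : (1 : ℝ) ≤ k := by exact_mod_cast hk1
  set Bad := P.filter (fun p => 2 * (D.image (phi p (root p true))).card < k) with hBad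
  set E : ℕ → ℕ := fun p => ((D.offDiag).filter
    (fun q => phi p (root p true) q.1 = phi p (root p true) q.2)).card with hE
  have hlogB : 0 ≤ Real.log B := Real.log_nonneg hB
  have hlogM : 0 < Real.log M := Real.log_pos (by exact_mod_cast hM)
  -- each bad prime has many coincidences
  have h1 : ∀ p ∈ Bad, k ≤ E p := by
    intro p hp
    rw [hBad, Finset.mem_filter] at hp
    have h2 := card_sq_le_image_mul D (phi p (root p true))
    have h3 : (((D ×ˢ D).filter (fun q => phi p (root p true) q.1 =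
        phi p (root p true) q.2)).card) = k + E p := by
      have : (D ×ˢ D).filter (fun q => phi p (root p true) q.1 = phi p (root p true) q.2) =
          D.diag ∪ (D.offDiag).filter (fun q => phi p (root p true) q.1 =
            phi p (root p true) q.2) := by
        ext ⟨a, b⟩
        simp only [Finset.mem_filter, Finset.mem_product, Finset.mem_union, Finset.mem_diag,
          Finset.mem_offDiag]
        constructor
        · rintro ⟨⟨ha, hb⟩, hab⟩
          by_cases h : a = b
          · exact Or.inl ⟨ha, h⟩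
          · exact Or.inr ⟨⟨ha, hb, h⟩, hab⟩
        · rintro (⟨ha, rfl⟩ | ⟨⟨ha, hb, h⟩, hab⟩)
          · exact ⟨⟨ha, ha⟩, rfl⟩
          · exact ⟨⟨ha, hb⟩, hab⟩
      rw [this, Finset.card_union_of_disjoint, Finset.diag_card]
      exact (Finset.disjoint_diag_offDiag D).mono_right (Finset.filter_subset _ _)
    rw [h3] at h2
    have h4 : ((D.image (phi p (root p true))).card : ℝ) * 2 < k := by
      have := hp.2
      have h5 : (D.image (phi p (root p true))).card * 2 < k := by omega
      exact_mod_cast h5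
    by_contra hcon
    push Not at hcon
    have h6 : (E p : ℝ) < k := by exact_mod_cast hcon
    have h7 : ((k + E p : ℕ) : ℝ) < 2 * k := by push_cast; linarith
    have h8 : (0 : ℝ) ≤ ((D.image (phi p (root p true))).card : ℝ) := Nat.cast_nonneg _
    have h9 : (k : ℝ) ^ 2 ≤ ((D.image (phi p (root p true))).card : ℝ) * (2 * k) :=
      h2.trans (mul_le_mul_of_nonneg_left h7.le h8)
    nlinarith
  -- the total number of coincidences
  have h2 : ∑ p ∈ P, (E p : ℝ) * Real.log p ≤ (k : ℝ) ^ 2 * Real.log B := by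
    calc ∑ p ∈ P, (E p : ℝ) * Real.log p
        = ∑ q ∈ D.offDiag, ∑ p ∈ P,
          (if phi p (root p true) (q.1 - q.2) = 0 then Real.log p else 0) := by
          rw [Finset.sum_comm]
          refine Finset.sum_congr rfl fun p _ => ?_
          rw [hE]
          simp only
          rw [Finset.card_filter, Nat.cast_sum, Finset.sum_mul]
          refine Finset.sum_congr rfl fun q _ => ?_
          have : (phi p (root p true) q.1 = phi p (root p true) q.2) ↔
              phi p (root p true) (q.1 - q.2) = 0 := by rw [phi_sub, sub_eq_zero]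
          by_cases h : phi p (root p true) (q.1 - q.2) = 0
          · rw [if_pos h, if_pos (this.2 h)]; simp
          · rw [if_neg h, if_neg (fun h' => h (this.1 h'))]; simp
      _ ≤ ∑ q ∈ D.offDiag, Real.log B := by
          refine Finset.sum_le_sum fun q hq => ?_
          rw [Finset.mem_offDiag] at hq
          have hne : q.1 - q.2 ≠ 0 := sub_ne_zero.2 hq.2.2
          have h3 := sum_log_le_log_norm P hP hne
          refine le_trans ?_ (h3.trans (Real.log_le_log ?_ (hdiam _ hq.1 _ hq.2.1)))
          · refine Finset.sum_le_sum fun p _ => ?_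
            rw [Fintype.sum_bool]
            have : 0 ≤ (if phi p (root p false) (q.1 - q.2) = 0 then Real.log p else 0) := by
              split_ifs
              · exact Real.log_natCast_nonneg p
              · exact le_rfl
            linarith
          · exact_mod_cast GaussianInt.norm_pos.2 hne
      _ = (D.offDiag.card : ℝ) * Real.log B := by rw [Finset.sum_const, nsmul_eq_mul]
      _ ≤ (k : ℝ) ^ 2 * Real.log B := by
          refine mul_le_mul_of_nonneg_right ?_ hlogB
          rw [Finset.offDiag_card, ← hk]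
          have : k * k - k ≤ k ^ 2 := by rw [sq]; exact Nat.sub_le _ _
          exact_mod_cast this
  have h3 : (Bad.card : ℝ) * (k * Real.log M) ≤ ∑ p ∈ P, (E p : ℝ) * Real.log p := by
    calc (Bad.card : ℝ) * (k * Real.log M) = ∑ p ∈ Bad, (k : ℝ) * Real.log M := by
          rw [Finset.sum_const, nsmul_eq_mul]
      _ ≤ ∑ p ∈ Bad, (E p : ℝ) * Real.log p := by
          refine Finset.sum_le_sum fun p hp => ?_
          have hpP := (Finset.mem_filter.1 hp).1
          have hMp : (M : ℝ) ≤ p := by exact_mod_cast (hPM p hpP).le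
          have hM0 : (0 : ℝ) < M := by exact_mod_cast (by omega : 0 < M)
          have h5 : Real.log M ≤ Real.log p := Real.log_le_log hM0 hMp
          have h6 : (k : ℝ) ≤ E p := by exact_mod_cast h1 p hp
          exact mul_le_mul h6 h5 hlogM.le (Nat.cast_nonneg _)
      _ ≤ _ := Finset.sum_le_sum_of_subset_of_nonneg (Finset.filter_subset _ _)
          fun p _ _ => mul_nonneg (Nat.cast_nonneg _) (Real.log_natCast_nonneg p)
  have h4 := h3.trans h2
  have hk0 : (0 : ℝ) < k := by linarith
  have h5 : (k : ℝ) * ((Bad.card : ℝ) * Real.log M) ≤ k * (k * Real.log B) := by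
    calc (k : ℝ) * ((Bad.card : ℝ) * Real.log M) = (Bad.card : ℝ) * (k * Real.log M) := by ring
      _ ≤ _ := h4
      _ = _ := by ring
  exact le_of_mul_le_mul_left h5 hk0

/-- **The prime tuple bound with explicit parameters.** -/
theorem tuple_core (D : Finset GaussianInt) (hD : D.Nonempty) {B : ℝ} (hB : 1 ≤ B)
    (hdiam : ∀ z ∈ D, ∀ w ∈ D, ((z - w).norm : ℝ) ≤ B) {M : ℕ} (hM : 2 ≤ M)
    {N0 : ℝ} (hN0 : N0 + D.card * Real.log B / Real.log M ≤ (primesMod M (4 * M)).card)
    {r : ℕ} (hr1 : 1 ≤ r) (hrN : 2 * (r : ℝ) ≤ N0) {T : ℝ} (hT : 1 ≤ T)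
    (hrT : (4 * (M : ℝ)) ^ (2 * r) ≤ 32 * T ^ 2) (z₀ : GaussianInt)
    (X : Finset GaussianInt) (hX : ∀ z ∈ X, |((z - z₀).re : ℝ)| ≤ T ∧ |((z - z₀).im : ℝ)| ≤ T)
    (hprime : ∀ z ∈ X, ∀ d ∈ D, Prime (z + d))
    (hbig : ∀ z ∈ X, ∀ d ∈ D, (16 * (M : ℤ) ^ 2) < (z + d).norm) :
    (X.card : ℝ) * (N0 * D.card / (16 * M * r)) ^ r ≤ 1024 * T ^ 2 := by
  classical
  set k : ℕ := D.card with hk
  have hk1 : 1 ≤ k := hD.card_pos
  have hM0 : (0 : ℝ) < M := by exact_mod_cast (by omega : 0 < M)
  have hlogM : 0 < Real.log M := Real.log_pos (by exact_mod_cast hM)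
  have hr0 : (0 : ℝ) < r := by exact_mod_cast hr1
  set P0 := primesMod M (4 * M) with hP0
  have hP0p : ∀ p ∈ P0, p.Prime ∧ p % 4 = 1 := fun p hp => (mem_primesMod.1 hp).2
  set P := P0.filter (fun p => ¬ 2 * (D.image (phi p (root p true))).card < k) with hP
  have hPsub : P ⊆ P0 := Finset.filter_subset _ _
  have hPp : ∀ p ∈ P, p.Prime ∧ p % 4 = 1 := fun p hp => hP0p p (hPsub hp)
  have hPM : ∀ p ∈ P, M < p ∧ p ≤ 4 * M := fun p hp => (mem_primesMod.1 (hPsub hp)).1
  have hcard : N0 ≤ P.card := by
    have h1 := bad_primes P0 hP0p hM (fun p hp => (mem_primesMod.1 hp).1.1) D hD hB hdiam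
    have h2 : ((P0.filter (fun p => 2 * (D.image (phi p (root p true))).card < k)).card : ℝ) ≤
        k * Real.log B / Real.log M := by
      rw [le_div_iff₀ hlogM]
      exact h1
    have h3 := Finset.card_filter_add_card_filter_not (s := P0)
      (fun p => 2 * (D.image (phi p (root p true))).card < k)
    have h4 : ((P0.filter (fun p => 2 * (D.image (phi p (root p true))).card < k)).card : ℝ) +
        P.card = P0.card := by
      exact_mod_cast h3
    linarith
  -- the forbidden classes
  set Ω : ∀ p : ℕ, Finset (ZMod p) := fun p =>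
    D.image (fun d => -(phi p (root p true) d) - phi p (root p true) z₀) with hΩ
  have hΩcard : ∀ p, (Ω p).card = (D.image (phi p (root p true))).card := by
    intro p
    have : Ω p = (D.image (phi p (root p true))).image
        (fun c => -c - phi p (root p true) z₀) := by
      rw [Finset.image_image]; rfl
    rw [this, Finset.card_image_of_injective]
    intro a b hab
    simp only [sub_left_inj, neg_inj] at hab
    exact hab
  set Y := X.image (fun z => z - z₀) with hY
  have hYc : Y.card = X.card := Finset.card_image_of_injective _ (fun a b hab => sub_left_inj.1 hab)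
  have hls := large_sieve P hPp Ω r hT (by
    intro A hA hAc
    refine le_trans ?_ hrT
    have h1 : ((∏ p ∈ A, p : ℕ) : ℝ) ≤ (4 * (M : ℝ)) ^ A.card := by
      rw [Nat.cast_prod, ← Finset.prod_const]
      refine Finset.prod_le_prod (fun p _ => Nat.cast_nonneg p) fun p hp => ?_
      exact_mod_cast (hPM p (hA hp)).2
    refine h1.trans (pow_le_pow_right₀ ?_ hAc)
    have : (2 : ℝ) ≤ M := by exact_mod_cast hM
    linarith) Y (by
    intro y hy
    rw [hY, Finset.mem_image] at hy
    obtain ⟨z, hz, rfl⟩ := hy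
    exact hX z hz) (by
    intro y hy p hp
    rw [hY, Finset.mem_image] at hy
    obtain ⟨z, hz, rfl⟩ := hy
    intro hmem
    rw [hΩ] at hmem
    simp only [Finset.mem_image] at hmem
    obtain ⟨d, hd, hdz⟩ := hmem
    rw [phi_sub] at hdz
    have h0 : phi p (root p true) (z + d) = 0 := by
      rw [phi_add]
      linear_combination -hdz
    have hpp := hPp p hp
    have h1 := dvd_norm_of_phi_eq_zero (root_mul_root hpp.1 hpp.2 true) h0
    have h2 := gprime_norm_le (hprime z hz d hd) hpp.1 h1
    have h3 := hbig z hz d hd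
    have h4 : (p : ℤ) ≤ 4 * M := by exact_mod_cast (hPM p hp).2
    have h5 : (0 : ℤ) ≤ p := Int.natCast_nonneg p
    nlinarith)
  rw [hYc] at hls
  refine le_trans ?_ hls
  refine mul_le_mul_of_nonneg_left ?_ (Nat.cast_nonneg _)
  have hge := esy_ge P (fun p => ((Ω p).card : ℝ) / p) (c := (k : ℝ) / (8 * M)) (by positivity) (by
    intro p hp
    have h1 := (Finset.mem_filter.1 hp).2
    rw [not_lt] at h1
    rw [hΩcard]
    have hp0 : (0 : ℝ) < p := by exact_mod_cast (hPp p hp).1.pos
    rw [div_le_div_iff₀ (by positivity) hp0]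
    have h2 : (p : ℝ) ≤ 4 * M := by exact_mod_cast (hPM p hp).2
    have h3 : (k : ℝ) ≤ 2 * ((D.image (phi p (root p true))).card : ℝ) := by exact_mod_cast h1
    nlinarith [mul_le_mul h3 h2 hp0.le (by positivity)]) hr1 hcard hrN
  refine le_trans (le_of_eq ?_) hge
  congr 1
  field_simp
  ring

end Vale.Agent.P015.H542
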