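import Vale.Agent.P015.H542.Weight

/-! Independence of the residues modulo different primes, with and without the weight. -/

namespace Vale.Agent.P015.H542

open Finset Vale.Agent.P015 Vale.Agent.P015.Cx

/-- the residue of `z` modulo one Gaussian prime above `p` -/
noncomputable def ell (m p : ℕ) (z : ZMod m × ZMod m) : ZMod p :=
  (z.1.cast : ZMod p) + root p true * (z.2.cast : ZMod p)

theorem ell_add {m p : ℕ} (hp : p ∣ m) (z w : ZMod m × ZMod m) :
    ell m p (z + w) = ell m p z + ell m p w := by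
  unfold ell
  rw [Prod.fst_add, Prod.snd_add, ZMod.cast_add hp, ZMod.cast_add hp]
  ring

theorem ell_int {m p : ℕ} (hp : p ∣ m) (a b : ℤ) :
    ell m p ((a : ZMod m), (b : ZMod m)) = (a : ZMod p) + root p true * (b : ZMod p) := by
  unfold ell
  rw [ZMod.cast_intCast hp, ZMod.cast_intCast hp]

theorem prod_dvd_int (A : Finset ℕ) (hA : ∀ p ∈ A, p.Prime) {x : ℤ}
    (h : ∀ p ∈ A, (p : ℤ) ∣ x) : ((∏ p ∈ A, p : ℕ) : ℤ) ∣ x := by
  rw [Nat.cast_prod]
  refine Finset.prod_dvd_of_coprime ?_ h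
  intro p hp q hq hpq
  change IsCoprime (p : ℤ) (q : ℤ)
  rw [Nat.isCoprime_iff_coprime]
  exact (Nat.coprime_primes (hA p hp) (hA q hq)).2 hpq

theorem exists_crt (A : Finset ℕ) (hA : ∀ p ∈ A, p.Prime) (c : ∀ p : ℕ, ZMod p) :
    ∃ r : ℤ, ∀ p ∈ A, (r : ZMod p) = c p := by
  induction A using Finset.induction_on with
  | empty => exact ⟨0, fun p hp => absurd hp (Finset.notMem_empty p)⟩
  | insert p A hpA ih =>
    obtain ⟨r, hr⟩ := ih fun q hq => hA q (Finset.mem_insert_of_mem hq)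
    have hp : p.Prime := hA p (Finset.mem_insert_self p A)
    have : Fact p.Prime := ⟨hp⟩
    set Q : ℕ := ∏ q ∈ A, q with hQ
    have hQ0 : (Q : ZMod p) ≠ 0 := by
      rw [Ne, ZMod.natCast_eq_zero_iff]
      intro hd
      rw [hQ, Prime.dvd_finsetProd_iff hp.prime] at hd
      obtain ⟨q, hq, hpq⟩ := hd
      have : p = q := (Nat.prime_dvd_prime_iff_eq hp (hA q (Finset.mem_insert_of_mem hq))).1 hpq
      subst this
      exact hpA hq
    obtain ⟨t, ht⟩ := ZMod.intCast_surjective ((c p - (r : ZMod p)) * (Q : ZMod p)⁻¹)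
    refine ⟨r + Q * t, fun q hq => ?_⟩
    rcases Finset.mem_insert.1 hq with rfl | hq
    · push_cast
      rw [ht, mul_comm ((Q : ZMod q)) _, mul_assoc, inv_mul_cancel₀ hQ0, mul_one]
      ring
    · have hqQ : ((Q : ℤ) : ZMod q) = 0 := by
        rw [Int.cast_natCast, ZMod.natCast_eq_zero_iff]
        exact Finset.dvd_prod_of_mem _ hq
      push_cast
      rw [Int.cast_natCast] at hqQ
      rw [hqQ, zero_mul, add_zero, hr q hq]

/-- The translation that detects a small nonzero frequency. -/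
theorem exists_tau {m h : ℕ} (hm : 0 < m) (A : Finset ℕ) (hA : ∀ p ∈ A, p.Prime ∧ p % 4 = 1)
    (hdiv : (∏ p ∈ A, p) ∣ m) (hq : 2 * h ^ 2 * (∏ p ∈ A, p) ≤ m ^ 2) (d : ℤ × ℤ)
    (h1 : |d.1| < h) (h2 : |d.2| < h) (hd : d ≠ 0) :
    ∃ τ : ℤ × ℤ, (∀ p ∈ A, (τ.1 : ZMod p) + root p true * (τ.2 : ZMod p) = 0) ∧
      ¬ (m : ℤ) ∣ τ.1 * d.1 + τ.2 * d.2 := by
  set q : ℕ := ∏ p ∈ A, p with hqdef
  have hq0 : 0 < q := Finset.prod_pos fun p hp => (hA p hp).1.pos
  obtain ⟨m', hm'⟩ := hdiv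
  have hm'0 : 0 < m' := by
    rcases Nat.eq_zero_or_pos m' with h0 | h0
    · rw [h0, mul_zero] at hm'; omega
    · exact h0
  obtain ⟨r, hr⟩ := exists_crt A (fun p hp => (hA p hp).1) (fun p => root p true)
  have hqz : ∀ p ∈ A, ((q : ℤ) : ZMod p) = 0 := by
    intro p hp
    rw [Int.cast_natCast, ZMod.natCast_eq_zero_iff]
    exact Finset.dvd_prod_of_mem _ hp
  by_contra hcon
  push Not at hcon
  have c1 := hcon ((q : ℤ), 0) (by
    intro p hp
    simp only [hqz p hp, Int.cast_zero, mul_zero, add_zero])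
  have c2 := hcon (0, (q : ℤ)) (by
    intro p hp
    simp only [hqz p hp, Int.cast_zero, mul_zero, add_zero])
  have c3 := hcon (-r, 1) (by
    intro p hp
    simp only [Int.cast_neg, hr p hp, Int.cast_one, mul_one, neg_add_cancel])
  simp only [zero_mul, add_zero, zero_add, one_mul] at c1 c2 c3
  have hmz : (m : ℤ) = (q : ℤ) * m' := by exact_mod_cast hm'
  have hqz0 : (q : ℤ) ≠ 0 := by exact_mod_cast hq0.ne'
  rw [hmz] at c1 c2 c3
  obtain ⟨u1, hu1⟩ := (mul_dvd_mul_iff_left hqz0).1 c1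
  obtain ⟨u2, hu2⟩ := (mul_dvd_mul_iff_left hqz0).1 c2
  have hm'z : (m' : ℤ) ≠ 0 := by exact_mod_cast hm'0.ne'
  have c4 : (q : ℤ) ∣ u2 - r * u1 := by
    rw [hu1, hu2] at c3
    have e : -r * ((m' : ℤ) * u1) + (m' : ℤ) * u2 = m' * (u2 - r * u1) := by ring
    rw [e, mul_comm (q : ℤ) (m' : ℤ)] at c3
    exact (mul_dvd_mul_iff_left hm'z).1 c3
  have c5 : (q : ℤ) ∣ r ^ 2 + 1 := by
    refine prod_dvd_int A (fun p hp => (hA p hp).1) fun p hp => ?_
    rw [← ZMod.intCast_zmod_eq_zero_iff_dvd]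
    push_cast
    rw [hr p hp, sq, root_mul_root (hA p hp).1 (hA p hp).2]
    ring
  have c6 : (q : ℤ) ∣ u1 ^ 2 + u2 ^ 2 := by
    have e : u1 ^ 2 + u2 ^ 2 = (u2 - r * u1) * (u2 + r * u1) + (r ^ 2 + 1) * u1 ^ 2 := by ring
    rw [e]
    exact dvd_add (dvd_mul_of_dvd_left c4 _) (dvd_mul_of_dvd_left c5 _)
  have c7 : u1 ^ 2 + u2 ^ 2 < q := by
    have hb1 : d.1 ^ 2 < (h : ℤ) ^ 2 := sq_lt_sq' (by linarith [neg_abs_le d.1, abs_nonneg d.1])
      (lt_of_le_of_lt (le_abs_self _) h1)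
    have hb2 : d.2 ^ 2 < (h : ℤ) ^ 2 := sq_lt_sq' (by linarith [neg_abs_le d.2, abs_nonneg d.2])
      (lt_of_le_of_lt (le_abs_self _) h2)
    have hqq : 2 * (h : ℤ) ^ 2 * q ≤ (m : ℤ) ^ 2 := by exact_mod_cast hq
    rw [hmz] at hqq
    rw [hu1] at hb1
    rw [hu2] at hb2
    have hqpos : (0 : ℤ) < q := by exact_mod_cast hq0
    have hmpos : (0 : ℤ) < (m' : ℤ) ^ 2 := by positivity
    have e1 : 2 * (h : ℤ) ^ 2 ≤ q * (m' : ℤ) ^ 2 := by
      have : (2 * (h : ℤ) ^ 2) * q ≤ (q * (m' : ℤ) ^ 2) * q := by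
        calc (2 * (h : ℤ) ^ 2) * q ≤ ((q : ℤ) * m') ^ 2 := hqq
          _ = _ := by ring
      exact le_of_mul_le_mul_right this hqpos
    have e2 : (m' : ℤ) ^ 2 * (u1 ^ 2 + u2 ^ 2) < (m' : ℤ) ^ 2 * q := by nlinarith
    exact lt_of_mul_lt_mul_left e2 hmpos.le
  have hnn : 0 ≤ u1 ^ 2 + u2 ^ 2 := by positivity
  have c8 : u1 ^ 2 + u2 ^ 2 = 0 := Int.eq_zero_of_dvd_of_nonneg_of_lt hnn c7 c6
  have z1 : u1 = 0 := by nlinarith [sq_nonneg u1, sq_nonneg u2]
  have z2 : u2 = 0 := by nlinarith [sq_nonneg u1, sq_nonneg u2]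
  apply hd
  rw [Prod.ext_iff]
  constructor
  · rw [hu1, z1, mul_zero]; rfl
  · rw [hu2, z2, mul_zero]; rfl

/-- Independence for the uniform measure. -/
theorem indep {m : ℕ} [NeZero m] (A : Finset ℕ) (hA : ∀ p ∈ A, p.Prime) (hdiv : ∀ p ∈ A, p ∣ m)
    (G : ∀ p : ℕ, ZMod p → ℝ) (μ : ℕ → ℝ)
    (hμ : ∀ p ∈ A, ∀ _ : Fact p.Prime, ∑ c, G p c = p * μ p) :
    ∑ z : ZMod m × ZMod m, ∏ p ∈ A, G p (ell m p z) = (m : ℝ) ^ 2 * ∏ p ∈ A, μ p := by
  induction A using Finset.induction_on with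
  | empty =>
    simp only [Finset.prod_empty, Finset.sum_const, Finset.card_univ, Fintype.card_prod,
      ZMod.card, nsmul_eq_mul, mul_one]
    push_cast
    ring
  | insert p A hpA ih =>
    have hp : p.Prime := hA p (Finset.mem_insert_self p A)
    have hfact : Fact p.Prime := ⟨hp⟩
    have hpm : p ∣ m := hdiv p (Finset.mem_insert_self p A)
    have ih' := ih (fun q hq => hA q (Finset.mem_insert_of_mem hq))
      (fun q hq => hdiv q (Finset.mem_insert_of_mem hq))
      (fun q hq => hμ q (Finset.mem_insert_of_mem hq))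
    set Q : ℕ := ∏ q ∈ A, q with hQ
    have hQ0 : (Q : ZMod p) ≠ 0 := by
      rw [Ne, ZMod.natCast_eq_zero_iff]
      intro hd
      rw [hQ, Prime.dvd_finsetProd_iff hp.prime] at hd
      obtain ⟨q, hq, hpq⟩ := hd
      have : p = q := (Nat.prime_dvd_prime_iff_eq hp (hA q (Finset.mem_insert_of_mem hq))).1 hpq
      subst this
      exact hpA hq
    set H : ZMod m × ZMod m → ℝ := fun z => ∏ q ∈ A, G q (ell m q z) with hH
    set τ : ZMod p → ZMod m × ZMod m := fun s => ((((Q : ℤ) * (s.val : ℤ) : ℤ) : ZMod m),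
      ((0 : ℤ) : ZMod m)) with hτ
    have hτq : ∀ s : ZMod p, ∀ q ∈ A, ell m q (τ s) = 0 := by
      intro s q hq
      rw [hτ]
      simp only
      rw [ell_int (hdiv q (Finset.mem_insert_of_mem hq))]
      have : ((Q : ℤ) : ZMod q) = 0 := by
        rw [Int.cast_natCast, ZMod.natCast_eq_zero_iff]
        exact Finset.dvd_prod_of_mem _ hq
      push_cast at this ⊢
      rw [this, zero_mul, mul_zero, add_zero]
    have hτp : ∀ s : ZMod p, ell m p (τ s) = (Q : ZMod p) * s := by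
      intro s
      rw [hτ]
      simp only
      rw [ell_int hpm]
      push_cast
      rw [ZMod.natCast_zmod_val, mul_zero, add_zero]
    have hshift : ∀ s : ZMod p, ∑ z, G p (ell m p z) * H z =
        ∑ z, G p (ell m p z + (Q : ZMod p) * s) * H z := by
      intro s
      rw [← Equiv.sum_comp (Equiv.addRight (τ s))
        (fun z : ZMod m × ZMod m => G p (ell m p z) * H z)]
      refine Finset.sum_congr rfl fun z _ => ?_
      simp only [Equiv.coe_addRight]
      rw [ell_add hpm, hτp]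
      congr 1
      rw [hH]
      simp only
      refine Finset.prod_congr rfl fun q hq => ?_
      rw [ell_add (hdiv q (Finset.mem_insert_of_mem hq)), hτq s q hq, add_zero]
    have hsum : ∀ x : ZMod p, ∑ s : ZMod p, G p (x + (Q : ZMod p) * s) = ∑ c, G p c := by
      intro x
      have hb : Function.Bijective (fun s : ZMod p => x + (Q : ZMod p) * s) := by
        rw [Fintype.bijective_iff_injective_and_card]
        refine ⟨?_, rfl⟩
        intro s t hst
        simp only [add_right_inj] at hst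
        exact mul_left_cancel₀ hQ0 hst
      exact hb.sum_comp (fun c => G p c)
    have hp0 : (p : ℝ) ≠ 0 := by exact_mod_cast hp.ne_zero
    have main : (p : ℝ) * ∑ z, G p (ell m p z) * H z = (p * μ p) * ∑ z, H z := by
      calc (p : ℝ) * ∑ z, G p (ell m p z) * H z
          = ∑ s : ZMod p, ∑ z, G p (ell m p z) * H z := by
            rw [Finset.sum_const, Finset.card_univ, ZMod.card, nsmul_eq_mul]
        _ = ∑ s : ZMod p, ∑ z, G p (ell m p z + (Q : ZMod p) * s) * H z :=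
            Finset.sum_congr rfl fun s _ => hshift s
        _ = ∑ z, (∑ s : ZMod p, G p (ell m p z + (Q : ZMod p) * s)) * H z := by
            rw [Finset.sum_comm]
            exact Finset.sum_congr rfl fun z _ => (Finset.sum_mul _ _ _).symm
        _ = ∑ z, (p * μ p) * H z := by
            refine Finset.sum_congr rfl fun z _ => ?_
            rw [hsum, hμ p (Finset.mem_insert_self p A) hfact]
        _ = _ := (Finset.mul_sum _ _ _).symm
    have main2 : ∑ z, G p (ell m p z) * H z = μ p * ∑ z, H z := by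
      have : (p : ℝ) * ∑ z, G p (ell m p z) * H z = p * (μ p * ∑ z, H z) := by
        rw [main]; ring
      exact mul_left_cancel₀ hp0 this
    rw [Finset.prod_insert hpA]
    have e : ∑ z : ZMod m × ZMod m, ∏ q ∈ insert p A, G q (ell m q z) =
        ∑ z, G p (ell m p z) * H z :=
      Finset.sum_congr rfl fun z _ => by rw [Finset.prod_insert hpA]
    rw [e, main2]
    have ih2 : ∑ z, H z = (m : ℝ) ^ 2 * ∏ q ∈ A, μ q := ih'
    rw [ih2]
    ring

end Vale.Agent.P015.H542
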