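import Vale.Agent.P015.H542.Indep

/-! A two-dimensional large sieve inequality for Gaussian integers. -/

namespace Vale.Agent.P015.H542

open Finset Vale.Agent.P015 Vale.Agent.P015.Cx

/-- density minus indicator -/
noncomputable def ff (Ω : ∀ p : ℕ, Finset (ZMod p)) (p : ℕ) (c : ZMod p) : ℝ :=
  open Classical in ((Ω p).card : ℝ) / p - (if c ∈ Ω p then 1 else 0)

theorem sum_ff (Ω : ∀ p : ℕ, Finset (ZMod p)) (p : ℕ) (hp : Fact p.Prime) :
    ∑ c, ff Ω p c = 0 := by
  classical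
  unfold ff
  have hp0 : (p : ℝ) ≠ 0 := by exact_mod_cast hp.out.ne_zero
  rw [Finset.sum_sub_distrib, Finset.sum_const, Finset.card_univ, ZMod.card, nsmul_eq_mul,
    Finset.sum_ite_mem, Finset.univ_inter, Finset.sum_const, nsmul_eq_mul, mul_one]
  field_simp
  ring

theorem sum_ff_sq (Ω : ∀ p : ℕ, Finset (ZMod p)) (p : ℕ) (hp : Fact p.Prime) :
    ∑ c, ff Ω p c * ff Ω p c =
      p * (((Ω p).card : ℝ) / p * (1 - ((Ω p).card : ℝ) / p)) := by
  classical
  have hp0 : (p : ℝ) ≠ 0 := by exact_mod_cast hp.out.ne_zero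
  have h1 : ∀ c : ZMod p, ff Ω p c * ff Ω p c =
      (((Ω p).card : ℝ) / p) * ff Ω p c - (((Ω p).card : ℝ) / p - 1) *
        (if c ∈ Ω p then 1 else 0) := by
    intro c
    unfold ff
    split_ifs
    · ring
    · ring
  rw [Finset.sum_congr rfl fun c _ => h1 c, Finset.sum_sub_distrib, ← Finset.mul_sum,
    sum_ff Ω p hp, ← Finset.mul_sum, Finset.sum_ite_mem, Finset.univ_inter, Finset.sum_const,
    nsmul_eq_mul, mul_one, mul_zero]
  field_simp
  ring

/-- **Large sieve.** -/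
theorem large_sieve (P : Finset ℕ) (hP : ∀ p ∈ P, p.Prime ∧ p % 4 = 1)
    (Ω : ∀ p : ℕ, Finset (ZMod p)) (r : ℕ) {T : ℝ} (hT : 1 ≤ T)
    (hr : ∀ A ⊆ P, A.card ≤ 2 * r → ((∏ p ∈ A, p : ℕ) : ℝ) ≤ 32 * T ^ 2)
    (X : Finset GaussianInt) (hX : ∀ z ∈ X, |(z.re : ℝ)| ≤ T ∧ |(z.im : ℝ)| ≤ T)
    (havoid : ∀ z ∈ X, ∀ p ∈ P, phi p (root p true) z ∉ Ω p) :
    (X.card : ℝ) * esy P (fun p => ((Ω p).card : ℝ) / p) r ≤ 1024 * T ^ 2 := by
  classical
  set g : ℕ → ℝ := fun p => ((Ω p).card : ℝ) / p with hg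
  have hg0 : ∀ p ∈ P, 0 ≤ g p := fun p _ => by rw [hg]; positivity
  have hg1 : ∀ p ∈ P, g p ≤ 1 := by
    intro p hp
    have hpp := (hP p hp).1
    have : Fact p.Prime := ⟨hpp⟩
    rw [hg]
    simp only
    rw [div_le_one (by exact_mod_cast hpp.pos)]
    have := Finset.card_le_univ (Ω p)
    rw [ZMod.card] at this
    exact_mod_cast this
  set q0 : ℕ := ∏ p ∈ P, p with hq0
  have hq0pos : 0 < q0 := Finset.prod_pos fun p hp => (hP p hp).1.pos
  set n0 : ℕ := ⌈8 * T⌉₊ with hn0
  have hn0T : 8 * T ≤ n0 := Nat.le_ceil _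
  have hn0pos : 0 < n0 := Nat.ceil_pos.2 (by linarith)
  set m : ℕ := q0 * n0 with hm
  have hmpos : 0 < m := Nat.mul_pos hq0pos hn0pos
  have hmR : (0 : ℝ) < m := by exact_mod_cast hmpos
  have : NeZero m := ⟨hmpos.ne'⟩
  have hmT : 8 * T ≤ m := by
    have : n0 ≤ m := Nat.le_mul_of_pos_left n0 hq0pos
    have : (n0 : ℝ) ≤ m := by exact_mod_cast this
    linarith
  have h8T : (0 : ℝ) < 8 * T := by linarith
  set h : ℕ := ⌊(m : ℝ) / (8 * T)⌋₊ with hh
  have hh1 : 1 ≤ h := by
    rw [hh, Nat.one_le_floor_iff, one_le_div h8T]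
    exact hmT
  have hhR : (1 : ℝ) ≤ h := by exact_mod_cast hh1
  have hhT : 8 * T * h ≤ m := by
    have := Nat.floor_le (div_nonneg hmR.le h8T.le)
    rw [← hh, le_div_iff₀ h8T] at this
    linarith
  have hmh : (m : ℝ) ≤ 16 * T * h := by
    have := Nat.lt_floor_add_one ((m : ℝ) / (8 * T))
    rw [← hh, div_lt_iff₀ h8T] at this
    nlinarith
  have hdvd : ∀ p ∈ P, p ∣ m := fun p hp =>
    dvd_mul_of_dvd_left (Finset.dvd_prod_of_mem _ hp) _
  -- the sieve function
  set f : ZMod m × ZMod m → ℝ := fun z =>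
    ∑ A ∈ P.powersetCard r, ∏ p ∈ A, ff Ω p (ell m p z) with hf
  -- the pair sums
  have hpair : ∀ A ∈ P.powersetCard r, ∀ B ∈ P.powersetCard r,
      ∑ z, wt m h z * ((∏ p ∈ A, ff Ω p (ell m p z)) * ∏ p ∈ B, ff Ω p (ell m p z)) =
        if A = B then (h : ℝ) ^ 2 * (m ^ 2 * ∏ p ∈ A, (g p * (1 - g p))) else 0 := by
    intro A hA B hB
    rw [Finset.mem_powersetCard] at hA hB
    set U := A ∪ B with hU
    have hUP : U ⊆ P := Finset.union_subset hA.1 hB.1
    have hUc : U.card ≤ 2 * r := by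
      have h1 : U.card ≤ A.card + B.card := Finset.card_union_le A B
      rw [hA.2, hB.2] at h1
      omega
    set G : ∀ p : ℕ, ZMod p → ℝ := fun p c =>
      (if p ∈ A then ff Ω p c else 1) * (if p ∈ B then ff Ω p c else 1) with hG
    have hprod : ∀ z, (∏ p ∈ A, ff Ω p (ell m p z)) * ∏ p ∈ B, ff Ω p (ell m p z) =
        ∏ p ∈ U, G p (ell m p z) := by
      intro z
      rw [hG]
      simp only
      rw [Finset.prod_mul_distrib, Finset.prod_ite_mem, Finset.prod_ite_mem, hU,
        Finset.union_inter_cancel_left, Finset.union_inter_cancel_right]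
    simp only [hprod]
    rw [weight_sum m h (fun z => ∏ p ∈ U, G p (ell m p z))]
    · have hμ : ∀ p ∈ U, ∀ _ : Fact p.Prime, ∑ c, G p c =
          p * (if p ∈ A then (if p ∈ B then g p * (1 - g p) else 0) else 0) := by
        intro p hp hfact
        rw [hG]
        simp only
        by_cases h1 : p ∈ A
        · by_cases h2 : p ∈ B
          · simp only [h1, h2, if_true]
            exact sum_ff_sq Ω p hfact
          · simp only [h1, h2, if_true, if_false, mul_one, mul_zero]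
            exact sum_ff Ω p hfact
        · have h2 : p ∈ B := by
            rcases Finset.mem_union.1 hp with h | h
            · exact absurd h h1
            · exact h
          simp only [h1, h2, if_true, if_false, one_mul, mul_zero]
          exact sum_ff Ω p hfact
      rw [indep U (fun p hp => (hP p (hUP hp)).1) (fun p hp => hdvd p (hUP hp)) G
        (fun p => if p ∈ A then (if p ∈ B then g p * (1 - g p) else 0) else 0) hμ]
      split_ifs with hAB
      · subst hAB
        rw [hU, Finset.union_self]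
        congr 2
        refine Finset.prod_congr rfl fun p hp => ?_
        simp only [hp, if_true]
      · have : ∃ p ∈ U, (if p ∈ A then (if p ∈ B then g p * (1 - g p) else 0) else 0) = 0 := by
          by_contra hcon
          push Not at hcon
          apply hAB
          apply Finset.Subset.antisymm
          · intro p hp
            by_contra hpB
            exact hcon p (Finset.mem_union_left _ hp) (by simp only [hp, hpB, if_true, if_false])
          · intro p hp
            by_contra hpA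
            exact hcon p (Finset.mem_union_right _ hp) (by simp only [hpA, if_false])
        obtain ⟨p, hp, hp0⟩ := this
        rw [Finset.prod_eq_zero hp hp0, mul_zero, mul_zero]
    · intro d hd1 hd2 hd0
      have hqU : (∏ p ∈ U, p) ∣ m :=
        dvd_mul_of_dvd_left (Finset.prod_dvd_prod_of_subset _ _ _ hUP) _
      have hineq : 2 * h ^ 2 * (∏ p ∈ U, p) ≤ m ^ 2 := by
        have h1 := hr U hUP hUc
        have h2 : (2 * (h : ℝ) ^ 2 * ((∏ p ∈ U, p : ℕ) : ℝ)) ≤ (m : ℝ) ^ 2 := by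
          calc 2 * (h : ℝ) ^ 2 * ((∏ p ∈ U, p : ℕ) : ℝ) ≤ 2 * (h : ℝ) ^ 2 * (32 * T ^ 2) :=
                mul_le_mul_of_nonneg_left h1 (by positivity)
            _ = (8 * T * h) ^ 2 := by ring
            _ ≤ (m : ℝ) ^ 2 := pow_le_pow_left₀ (by positivity) hhT 2
        exact_mod_cast h2
      obtain ⟨τ, hτ1, hτ2⟩ := exists_tau hmpos U (fun p hp => hP p (hUP hp)) hqU hineq d hd1 hd2 hd0
      refine ⟨((τ.1 : ZMod m), (τ.2 : ZMod m)), ?_, ?_⟩
      · intro z
        refine Finset.prod_congr rfl fun p hp => ?_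
        rw [ell_add (hdvd p (hUP hp)), ell_int (hdvd p (hUP hp)), hτ1 p hp, add_zero]
      · intro h0
        apply hτ2
        rw [← ZMod.intCast_zmod_eq_zero_iff_dvd]
        push_cast
        exact h0
  have hsum : ∑ z, wt m h z * f z ^ 2 =
      (h : ℝ) ^ 2 * (m : ℝ) ^ 2 * ∑ A ∈ P.powersetCard r, ∏ p ∈ A, (g p * (1 - g p)) := by
    calc ∑ z, wt m h z * f z ^ 2
        = ∑ z, ∑ A ∈ P.powersetCard r, ∑ B ∈ P.powersetCard r,
          wt m h z * ((∏ p ∈ A, ff Ω p (ell m p z)) * ∏ p ∈ B, ff Ω p (ell m p z)) := by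
          refine Finset.sum_congr rfl fun z _ => ?_
          rw [sq, hf]
          simp only
          rw [Finset.sum_mul_sum, Finset.mul_sum]
          exact Finset.sum_congr rfl fun A _ => Finset.mul_sum _ _ _
      _ = ∑ A ∈ P.powersetCard r, ∑ B ∈ P.powersetCard r, ∑ z,
          wt m h z * ((∏ p ∈ A, ff Ω p (ell m p z)) * ∏ p ∈ B, ff Ω p (ell m p z)) := by
          rw [Finset.sum_comm]
          exact Finset.sum_congr rfl fun A _ => Finset.sum_comm
      _ = ∑ A ∈ P.powersetCard r, ∑ B ∈ P.powersetCard r,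
          if A = B then (h : ℝ) ^ 2 * (m ^ 2 * ∏ p ∈ A, (g p * (1 - g p))) else 0 :=
          Finset.sum_congr rfl fun A hA => Finset.sum_congr rfl fun B hB => hpair A hA B hB
      _ = ∑ A ∈ P.powersetCard r, (h : ℝ) ^ 2 * (m ^ 2 * ∏ p ∈ A, (g p * (1 - g p))) := by
          refine Finset.sum_congr rfl fun A hA => ?_
          rw [Finset.sum_ite_eq, if_pos hA]
      _ = _ := by
          rw [Finset.mul_sum]
          exact Finset.sum_congr rfl fun A _ => by ring
  have hup : ∑ z, wt m h z * f z ^ 2 ≤ (h : ℝ) ^ 2 * (m : ℝ) ^ 2 * esy P g r := by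
    rw [hsum]
    refine mul_le_mul_of_nonneg_left ?_ (by positivity)
    unfold esy
    refine Finset.sum_le_sum fun A hA => ?_
    have hAP := (Finset.mem_powersetCard.1 hA).1
    refine Finset.prod_le_prod (fun p hp => ?_) fun p hp => ?_
    · exact mul_nonneg (hg0 p (hAP hp)) (by linarith [hg1 p (hAP hp)])
    · nlinarith [hg0 p (hAP hp), hg1 p (hAP hp)]
  -- the lower bound
  set ι : GaussianInt → ZMod m × ZMod m := fun z => ((z.re : ZMod m), (z.im : ZMod m)) with hι
  have hinj : Set.InjOn ι X := by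
    intro z hz w hw hzw
    have hz' := hX z hz
    have hw' := hX w hw
    rw [hι] at hzw
    simp only [Prod.mk.injEq] at hzw
    have key : ∀ a b : ℤ, |(a : ℝ)| ≤ T → |(b : ℝ)| ≤ T → (a : ZMod m) = (b : ZMod m) → a = b := by
      intro a b ha hb hab
      have h1 : (m : ℤ) ∣ a - b := by
        rw [← ZMod.intCast_zmod_eq_zero_iff_dvd]
        push_cast
        rw [hab, sub_self]
      by_contra hne
      have h2 : (m : ℤ) ≤ |a - b| := Int.le_of_dvd (abs_pos.2 (sub_ne_zero.2 hne))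
        ((dvd_abs _ _).2 h1)
      have h3 : (m : ℝ) ≤ |(a : ℝ) - b| := by exact_mod_cast h2
      have h4 := abs_sub (a : ℝ) b
      linarith
    exact Zsqrtd.ext (key _ _ hz'.1 hw'.1 hzw.1) (key _ _ hz'.2 hw'.2 hzw.2)
  have hfX : ∀ z ∈ X, f (ι z) = esy P g r := by
    intro z hz
    rw [hf]
    simp only
    unfold esy
    refine Finset.sum_congr rfl fun A hA => Finset.prod_congr rfl fun p hp => ?_
    have hpP := (Finset.mem_powersetCard.1 hA).1 hp
    rw [hι]
    simp only
    rw [ell_int (hdvd p hpP)]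
    have h1 := havoid z hz p hpP
    unfold phi at h1
    unfold ff
    rw [if_neg h1, sub_zero]
  have hlow : (X.card : ℝ) * ((h : ℝ) ^ 4 / 4 * esy P g r ^ 2) ≤ ∑ z, wt m h z * f z ^ 2 := by
    calc (X.card : ℝ) * ((h : ℝ) ^ 4 / 4 * esy P g r ^ 2)
        = ∑ z ∈ X, ((h : ℝ) ^ 4 / 4 * esy P g r ^ 2) := by
          rw [Finset.sum_const, nsmul_eq_mul]
      _ ≤ ∑ z ∈ X, wt m h (ι z) * f (ι z) ^ 2 := by
          refine Finset.sum_le_sum fun z hz => ?_
          rw [hfX z hz]
          exact mul_le_mul_of_nonneg_right (wt_ge m h hhT (hX z hz).1 (hX z hz).2) (sq_nonneg _)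
      _ = ∑ y ∈ X.image ι, wt m h y * f y ^ 2 := by
          rw [Finset.sum_image hinj]
      _ ≤ _ := Finset.sum_le_sum_of_subset_of_nonneg (Finset.subset_univ _)
          fun y _ _ => mul_nonneg (wt_nonneg m h y) (sq_nonneg _)
  have he0 : 0 ≤ esy P g r := esy_nonneg P g hg0 r
  rcases he0.eq_or_lt with he | he
  · rw [← he, mul_zero]; positivity
  · have h1 := hlow.trans hup
    have h2 : (m : ℝ) ^ 2 ≤ 256 * T ^ 2 * (h : ℝ) ^ 2 := by
      calc (m : ℝ) ^ 2 ≤ (16 * T * h) ^ 2 := pow_le_pow_left₀ hmR.le hmh 2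
        _ = _ := by ring
    have h3 : (X.card : ℝ) * ((h : ℝ) ^ 4 / 4 * esy P g r ^ 2) ≤
        (h : ℝ) ^ 2 * (256 * T ^ 2 * (h : ℝ) ^ 2) * esy P g r := by
      refine h1.trans ?_
      exact mul_le_mul_of_nonneg_right (mul_le_mul_of_nonneg_left h2 (by positivity)) he0
    have h4 : 0 < (h : ℝ) ^ 4 / 4 * esy P g r := by positivity
    have h5 : ((h : ℝ) ^ 4 / 4 * esy P g r) * ((X.card : ℝ) * esy P g r) ≤
        ((h : ℝ) ^ 4 / 4 * esy P g r) * (1024 * T ^ 2) := by
      calc ((h : ℝ) ^ 4 / 4 * esy P g r) * ((X.card : ℝ) * esy P g r)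
          = (X.card : ℝ) * ((h : ℝ) ^ 4 / 4 * esy P g r ^ 2) := by ring
        _ ≤ _ := h3
        _ = _ := by ring
    exact le_of_mul_le_mul_left h5 h4

end Vale.Agent.P015.H542
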