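import Vale.Agent.P015.H542.Good

/-! The asymptotic prime tuple bound. -/

namespace Vale.Agent.P015.H542

open Finset Vale.Agent.P015 Vale.Agent.P015.Cx Filter Topology

theorem log_small {a c : ℝ} (ha : 0 < a) (hc : 0 < c) :
    ∀ᶠ k : ℕ in atTop, Real.log k ≤ c * (k : ℝ) ^ a := by
  have h := (isLittleO_log_rpow_atTop ha).bound hc
  have h2 := tendsto_natCast_atTop_atTop (R := ℝ) |>.eventually h
  filter_upwards [h2, eventually_ge_atTop 1] with k hk hk1
  have h3 : (0 : ℝ) ≤ (k : ℝ) ^ a := by positivity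
  rw [Real.norm_eq_abs, Real.norm_eq_abs, abs_of_nonneg h3] at hk
  exact (le_abs_self _).trans hk

theorem const_small {a : ℝ} (C : ℝ) (ha : 0 < a) :
    ∀ᶠ k : ℕ in atTop, C ≤ (k : ℝ) ^ a :=
  ((tendsto_rpow_atTop ha).comp (tendsto_natCast_atTop_atTop (R := ℝ))).eventually
    (eventually_ge_atTop C)

theorem const_log (C : ℝ) : ∀ᶠ k : ℕ in atTop, C ≤ Real.log k :=
  (Real.tendsto_log_atTop.comp (tendsto_natCast_atTop_atTop (R := ℝ))).eventually
    (eventually_ge_atTop C)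

/-- Many primes `1 mod 4` in `(M, 4M]`. -/
theorem many_primes : ∃ M₀ : ℕ, 2 ≤ M₀ ∧ ∀ M : ℕ, M₀ ≤ M →
    (M : ℝ) / (2 * Real.log (4 * M)) ≤ (primesMod M (4 * M)).card := by
  obtain ⟨N, hN1, hN⟩ := th_lower (c := 49 / 100) (by norm_num)
  refine ⟨max N 2, le_max_right _ _, fun M hM => ?_⟩
  have hMN : N ≤ 4 * M := by have := (le_max_left N 2).trans hM; omega
  have hM2 : 2 ≤ M := (le_max_right N 2).trans hM
  have hMR : (2 : ℝ) ≤ M := by exact_mod_cast hM2
  have h1 := hN (4 * M) hMN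
  have h2 := th_upper M
  have hlog4 : Real.log 4 ≤ 139 / 100 := by
    have : Real.log 4 = 2 * Real.log 2 := by
      rw [show (4 : ℝ) = 2 ^ 2 by norm_num, Real.log_pow]; norm_num
    rw [this]
    have := Real.log_two_lt_d9
    linarith
  have hlg : 0 < Real.log (4 * (M : ℝ)) := Real.log_pos (by linarith)
  have h3 : th (4 * M) ≤ th M + (primesMod M (4 * M)).card * Real.log (4 * (M : ℝ)) := by
    have e : th (4 * M) = th M + ∑ p ∈ primesMod M (4 * M), Real.log p :=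
      sum_primesMod_add (Nat.zero_le _) (by omega) (fun p => Real.log p)
    rw [e, ← nsmul_eq_mul, ← Finset.sum_const]
    gcongr with p hp
    · have := (mem_primesMod.1 hp).1.1
      have : 0 < p := by omega
      exact_mod_cast this
    · exact_mod_cast (mem_primesMod.1 hp).1.2
  push_cast at h1
  rw [div_le_iff₀ (by positivity)]
  nlinarith


/-- the saving, a real inequality -/
theorem saving_aux {η ε y L lg r : ℝ} (hη0 : 0 < η) (hε : 0 < ε) (hy0 : 0 < y)
    (hL0 : 0 < L) (hlg0 : 0 < lg) (hlgle : lg ≤ (1 + 2 * (ε / 16)) * L) (hrge : y / lg - 1 ≤ r)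
    (hL'0 : 0 ≤ (1 - η) * L - Real.log 64) (hk6 : Real.log 64 * (8 / ε) ≤ L)
    (hk7 : L ≤ ε / 8 * y) :
    (1 - η - 3 * ε / 8) * y ≤ r * ((1 - η) * L - Real.log 64) := by
  set L' : ℝ := (1 - η) * L - Real.log 64 with hL'
  have h64 : 0 ≤ Real.log 64 := Real.log_nonneg (by norm_num)
  have hL'L : L' ≤ L := by
    have : 0 < η * L := mul_pos hη0 hL0
    rw [hL']; linarith
  have hc1 : (0 : ℝ) < 1 + 2 * (ε / 16) := by positivity
  have h1 : y / ((1 + 2 * (ε / 16)) * L) - 1 ≤ r := by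
    refine le_trans ?_ hrge
    have := div_le_div_of_nonneg_left hy0.le hlg0 hlgle
    linarith
  have h2 : (y / ((1 + 2 * (ε / 16)) * L) - 1) * L' ≤ r * L' := mul_le_mul_of_nonneg_right h1 hL'0
  refine le_trans ?_ h2
  have h3 : y / ((1 + 2 * (ε / 16)) * L) * L' = y * ((1 - η) / (1 + 2 * (ε / 16))) -
      y * (Real.log 64 / ((1 + 2 * (ε / 16)) * L)) := by
    rw [hL']; field_simp
  have h4 : 1 - η - 2 * (ε / 16) ≤ (1 - η) / (1 + 2 * (ε / 16)) := by
    rw [le_div_iff₀ hc1]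
    have h41 : 0 < η * ε := mul_pos hη0 hε
    have h42 : 0 < ε * ε := mul_pos hε hε
    nlinarith only [h41, h42]
  have h5 : Real.log 64 / ((1 + 2 * (ε / 16)) * L) ≤ ε / 8 := by
    rw [div_le_iff₀ (by positivity)]
    have h6 : Real.log 64 ≤ ε / 8 * L := by
      have := mul_le_mul_of_nonneg_left hk6 (show (0 : ℝ) ≤ ε / 8 by positivity)
      calc Real.log 64 = ε / 8 * (Real.log 64 * (8 / ε)) := by field_simp
        _ ≤ _ := this
    have h7 : 0 ≤ ε / 8 * (2 * (ε / 16) * L) := by positivity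
    linarith only [h6, h7]
  rw [sub_mul (y / ((1 + 2 * (ε / 16)) * L)) 1 L', one_mul, h3]
  have h6 := mul_le_mul_of_nonneg_left h4 hy0.le
  have h7 := mul_le_mul_of_nonneg_left h5 hy0.le
  linarith only [h6, h7, hk7, hL'L]

theorem saving_pow {k η y lg M N0 : ℝ} {r : ℕ} (hk0 : 0 < k) (hy : y = k ^ η)
    (hlg0 : 0 < lg) (hr1 : 1 ≤ r) (hrle : r * lg ≤ y) (hM0 : 0 < M) (hN0 : N0 = M / (4 * lg)) :
    Real.exp (r * ((1 - η) * Real.log k - Real.log 64)) ≤ (N0 * k / (16 * M * r)) ^ r := by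
  have hrR : (0 : ℝ) < r := by exact_mod_cast hr1
  have h1 : Real.exp ((1 - η) * Real.log k - Real.log 64) ≤ N0 * k / (16 * M * r) := by
    have h2 : Real.exp ((1 - η) * Real.log k - Real.log 64) = k ^ (1 - η) / 64 := by
      rw [Real.exp_sub, Real.exp_log (by norm_num), mul_comm, Real.rpow_def_of_pos hk0]
    rw [h2]
    have h3 : N0 * k / (16 * M * r) = k / (64 * (r * lg)) := by
      rw [hN0]; field_simp; norm_num
    rw [h3, div_le_div_iff₀ (by norm_num) (by positivity)]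
    have h4 : k = y * k ^ (1 - η) := by
      rw [hy, ← Real.rpow_add hk0]
      rw [show η + (1 - η) = 1 by ring, Real.rpow_one]
    have h5 : k ^ (1 - η) * (r * lg) ≤ k ^ (1 - η) * y :=
      mul_le_mul_of_nonneg_left hrle (by positivity)
    calc k ^ (1 - η) * (64 * (r * lg)) = 64 * (k ^ (1 - η) * (r * lg)) := by ring
      _ ≤ 64 * (k ^ (1 - η) * y) := mul_le_mul_of_nonneg_left h5 (by norm_num)
      _ = k * 64 := by rw [mul_comm (k ^ (1 - η)) y, ← h4]; ring
  calc Real.exp (r * ((1 - η) * Real.log k - Real.log 64))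
      = Real.exp ((1 - η) * Real.log k - Real.log 64) ^ r := by rw [← Real.exp_nat_mul]
    _ ≤ _ := pow_le_pow_left₀ (Real.exp_pos _).le h1 r

theorem count_aux {k A δ L lg M N0 : ℝ} (hk0 : 0 < k) (hA : 0 ≤ A) (hδ0 : 0 < δ) (hL0 : 0 < L)
    (hLk : Real.log k = L) (hlogM : L ≤ Real.log M) (hlg0 : 0 < lg)
    (hlgle : lg ≤ (1 + 2 * δ) * L) (hMge : k ^ (1 + δ) ≤ M)
    (hk5 : L ≤ 1 / (8 * (A + 1) * (1 + 2 * δ)) * k ^ δ) (hN0 : N0 = M / (4 * lg)) :
    N0 + k * Real.log (k ^ (2 * A)) / Real.log M ≤ M / (2 * lg) := by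
  rw [Real.log_rpow hk0, hLk]
  have h1 : k * (2 * A * L) / Real.log M ≤ 2 * A * k := by
    rw [div_le_iff₀ (hL0.trans_le hlogM)]
    have : 2 * A * k * L ≤ 2 * A * k * Real.log M :=
      mul_le_mul_of_nonneg_left hlogM (by positivity)
    linarith only [this]
  have h2 : 2 * A * k ≤ M / (4 * lg) := by
    rw [le_div_iff₀ (by positivity)]
    have h3 : (8 * (A + 1) * (1 + 2 * δ)) * L ≤ k ^ δ := by
      have := mul_le_mul_of_nonneg_left hk5 (show (0 : ℝ) ≤ 8 * (A + 1) * (1 + 2 * δ) by positivity)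
      calc (8 * (A + 1) * (1 + 2 * δ)) * L
          ≤ (8 * (A + 1) * (1 + 2 * δ)) * (1 / (8 * (A + 1) * (1 + 2 * δ)) * k ^ δ) := this
        _ = _ := by field_simp
    calc 2 * A * k * (4 * lg) = (8 * A * lg) * k := by ring
      _ ≤ (8 * (A + 1) * ((1 + 2 * δ) * L)) * k := by
          refine mul_le_mul_of_nonneg_right ?_ hk0.le
          have h4 : 8 * A ≤ 8 * (A + 1) := by linarith only
          exact mul_le_mul h4 hlgle hlg0.le (by positivity)
      _ = k * ((8 * (A + 1) * (1 + 2 * δ)) * L) := by ring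
      _ ≤ k * k ^ δ := mul_le_mul_of_nonneg_left h3 hk0.le
      _ = k ^ (1 + δ) := by rw [Real.rpow_add hk0, Real.rpow_one]
      _ ≤ M := hMge
  have h3 : M / (2 * lg) = N0 + M / (4 * lg) := by
    rw [hN0]; field_simp; ring
  rw [h3]
  linarith only [h1, h2]

theorem small_aux {k δ y M : ℝ} (hk0 : 0 < k) (hδ0 : 0 < δ) (hM1 : 1 ≤ M)
    (hMle : 4 * M ≤ k ^ (1 + 2 * δ)) (hk8 : Real.log k ≤ 1 / (2 * (3 + 4 * δ)) * y)
    (hk10 : 2 * Real.log 18 ≤ y) :
    k * (2 * (4 * M) + 1) ^ 2 ≤ Real.exp y / 2 := by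
  have h5 : (2 * (4 * M) + 1) ≤ 3 * (4 * M) := by linarith only [hM1]
  have h6 : k * (2 * (4 * M) + 1) ^ 2 ≤ 9 * Real.exp ((3 + 4 * δ) * Real.log k) := by
    calc k * (2 * (4 * M) + 1) ^ 2 ≤ k * (3 * k ^ (1 + 2 * δ)) ^ 2 := by
          refine mul_le_mul_of_nonneg_left ?_ hk0.le
          refine pow_le_pow_left₀ (by positivity) ?_ 2
          linarith only [h5, hMle]
      _ = 9 * (k ^ (1 : ℝ) * (k ^ (1 + 2 * δ)) ^ (2 : ℝ)) := by
          rw [Real.rpow_one, Real.rpow_two]; ring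
      _ = 9 * k ^ (3 + 4 * δ) := by
          rw [← Real.rpow_mul hk0.le, ← Real.rpow_add hk0]
          congr 2; ring
      _ = _ := by rw [mul_comm (3 + 4 * δ) (Real.log k), ← Real.rpow_def_of_pos hk0]
  have h7 : (3 + 4 * δ) * Real.log k ≤ y / 2 := by
    have := mul_le_mul_of_nonneg_left hk8 (show (0 : ℝ) ≤ 3 + 4 * δ by positivity)
    calc (3 + 4 * δ) * Real.log k ≤ (3 + 4 * δ) * (1 / (2 * (3 + 4 * δ)) * y) := this
      _ = _ := by field_simp
  have h8 : (18 : ℝ) ≤ Real.exp (y / 2) := by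
    calc (18 : ℝ) = Real.exp (Real.log 18) := (Real.exp_log (by norm_num)).symm
      _ ≤ _ := Real.exp_le_exp.2 (by linarith only [hk10])
  have h9 : Real.exp y = Real.exp (y / 2) * Real.exp (y / 2) := by
    rw [← Real.exp_add]; congr 1; ring
  have h10 : 18 * Real.exp ((3 + 4 * δ) * Real.log k) ≤ Real.exp y := by
    rw [h9]
    exact mul_le_mul h8 (Real.exp_le_exp.2 h7) (Real.exp_pos _).le (Real.exp_pos _).le
  linarith only [h6, h10]

/-- The choice of the parameters. -/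
theorem params {η A ε : ℝ} (hη0 : 0 < η) (hη1 : η < 1) (hA : 0 ≤ A) (hε : 0 < ε) :
    ∀ᶠ k : ℕ in atTop, ∃ (M r : ℕ) (N0 : ℝ), 2 ≤ k ∧ 2 ≤ M ∧
      N0 + k * Real.log ((k : ℝ) ^ (2 * A)) / Real.log M ≤ (primesMod M (4 * M)).card ∧
      1 ≤ r ∧ 2 * (r : ℝ) ≤ N0 ∧
      (4 * (M : ℝ)) ^ (2 * r) ≤ 32 * (2 * Real.exp ((k : ℝ) ^ η)) ^ 2 ∧
      Real.exp ((1 - η - 3 * ε / 8) * (k : ℝ) ^ η) ≤ (N0 * k / (16 * M * r)) ^ r ∧
      (k : ℝ) * (2 * (4 * (M : ℝ)) + 1) ^ 2 ≤ Real.exp ((k : ℝ) ^ η) / 2 ∧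
      8192 ≤ Real.exp (5 * ε / 8 * (k : ℝ) ^ η) := by
  obtain ⟨M₀, hM₀2, hM₀⟩ := many_primes
  have hδ0 : 0 < ε / 16 := by positivity
  filter_upwards [const_small 8 hδ0, const_small (M₀ : ℝ) one_pos, const_small 8 (sub_pos.2 hη1),
    log_small hη0 (c := 1 / (1 + 2 * (ε / 16))) (by positivity),
    log_small hδ0 (c := 1 / (8 * (A + 1) * (1 + 2 * (ε / 16)))) (by positivity),
    const_log (Real.log 64 * (8 / ε)), const_log (Real.log 64 / (1 - η)),
    log_small hη0 (c := ε / 8) (by positivity),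
    log_small hη0 (c := 1 / (2 * (3 + 4 * (ε / 16)))) (by positivity),
    const_small (Real.log 8192 * (8 / (5 * ε))) hη0, const_small (2 * Real.log 18) hη0,
    eventually_ge_atTop 2] with k hk1 hk2 hk3 hk4 hk5 hk6 hk6' hk7 hk8 hk9 hk10 hk11
  set δ : ℝ := ε / 16 with hδ
  have hkR : (2 : ℝ) ≤ k := by exact_mod_cast hk11
  have hk0 : (0 : ℝ) < k := by linarith only [hkR]
  set y : ℝ := (k : ℝ) ^ η with hy
  have hy0 : 0 < y := by positivity
  set L : ℝ := Real.log k with hL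
  have hL0 : 0 < L := Real.log_pos (by linarith only [hkR])
  set M : ℕ := ⌈(k : ℝ) ^ (1 + δ)⌉₊ with hM
  have hMge : (k : ℝ) ^ (1 + δ) ≤ M := Nat.le_ceil _
  have hkM1 : (k : ℝ) ≤ (k : ℝ) ^ (1 + δ) := by
    calc (k : ℝ) = (k : ℝ) ^ (1 : ℝ) := (Real.rpow_one _).symm
      _ ≤ _ := Real.rpow_le_rpow_of_exponent_le (by linarith only [hkR]) (by linarith only [hδ0])
  have hkM : (k : ℝ) ≤ M := hkM1.trans hMge
  have hMM₀ : M₀ ≤ M := by
    rw [Real.rpow_one] at hk2
    have : (M₀ : ℝ) ≤ M := hk2.trans hkM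
    exact_mod_cast this
  have hM2 : 2 ≤ M := hM₀2.trans hMM₀
  have hMR : (2 : ℝ) ≤ M := by exact_mod_cast hM2
  have hM0 : (0 : ℝ) < M := by linarith only [hMR]
  have hMle : 4 * (M : ℝ) ≤ (k : ℝ) ^ (1 + 2 * δ) := by
    have h1 : (M : ℝ) < (k : ℝ) ^ (1 + δ) + 1 := Nat.ceil_lt_add_one (by positivity)
    have h2 : (k : ℝ) ^ (1 + 2 * δ) = (k : ℝ) ^ (1 + δ) * (k : ℝ) ^ δ := by
      rw [← Real.rpow_add hk0]; congr 1; ring
    rw [h2]
    have h3 : (k : ℝ) ^ (1 + δ) * 8 ≤ (k : ℝ) ^ (1 + δ) * (k : ℝ) ^ δ :=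
      mul_le_mul_of_nonneg_left hk1 (by positivity)
    linarith only [h1, h3, hkM1, hkR]
  set lg : ℝ := Real.log (4 * (M : ℝ)) with hlg
  have hlg0 : 0 < lg := Real.log_pos (by linarith only [hMR])
  have hlgle : lg ≤ (1 + 2 * δ) * L := by
    calc lg ≤ Real.log ((k : ℝ) ^ (1 + 2 * δ)) := Real.log_le_log (by positivity) hMle
      _ = _ := Real.log_rpow hk0 _
  have hlgy : lg ≤ y := by
    refine hlgle.trans ?_
    have := mul_le_mul_of_nonneg_left hk4 (show (0 : ℝ) ≤ 1 + 2 * δ by positivity)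
    calc (1 + 2 * δ) * L ≤ (1 + 2 * δ) * (1 / (1 + 2 * δ) * y) := this
      _ = y := by field_simp
  set r : ℕ := ⌊y / lg⌋₊ with hr
  have hr1 : 1 ≤ r := by
    rw [hr, Nat.one_le_floor_iff, one_le_div hlg0]
    exact hlgy
  have hrle : r * lg ≤ y := by
    have := Nat.floor_le (div_nonneg hy0.le hlg0.le)
    rwa [← hr, le_div_iff₀ hlg0] at this
  have hrge : y / lg - 1 ≤ r := by
    have := Nat.lt_floor_add_one (y / lg)
    rw [← hr] at this
    linarith only [this]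
  have hyk : 8 * y ≤ k := by
    have h1 : (k : ℝ) = y * (k : ℝ) ^ (1 - η) := by
      rw [hy, ← Real.rpow_add hk0]
      rw [show η + (1 - η) = 1 by ring, Real.rpow_one]
    calc 8 * y = y * 8 := by ring
      _ ≤ y * (k : ℝ) ^ (1 - η) := mul_le_mul_of_nonneg_left hk3 hy0.le
      _ = k := h1.symm
  refine ⟨M, r, (M : ℝ) / (4 * lg), hk11, hM2, ?_, hr1, ?_, ?_, ?_, ?_, ?_⟩
  · refine le_trans ?_ (hM₀ M hMM₀)
    exact count_aux hk0 hA hδ0 hL0 rfl (Real.log_le_log hk0 hkM) hlg0 hlgle hMge hk5 rfl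
  · rw [le_div_iff₀ (by positivity)]
    linarith only [hrle, hyk, hkM]
  · have h1 : (4 * (M : ℝ)) ^ r ≤ Real.exp y := by
      calc (4 * (M : ℝ)) ^ r = Real.exp (r * lg) := by
            rw [← Real.rpow_natCast, Real.rpow_def_of_pos (by positivity), mul_comm]
        _ ≤ _ := Real.exp_le_exp.2 hrle
    calc (4 * (M : ℝ)) ^ (2 * r) = ((4 * (M : ℝ)) ^ r) ^ 2 := by rw [mul_comm 2 r, pow_mul]
      _ ≤ (Real.exp y) ^ 2 := pow_le_pow_left₀ (by positivity) h1 2
      _ ≤ _ := by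
          have := sq_nonneg (Real.exp y)
          rw [mul_pow]
          linarith only [this]
  · refine le_trans ?_ (saving_pow hk0 hy hlg0 hr1 hrle hM0 rfl)
    refine Real.exp_le_exp.2 ?_
    refine saving_aux hη0 hε hy0 hL0 hlg0 hlgle hrge ?_ hk6 hk7
    have hη' : 0 < 1 - η := sub_pos.2 hη1
    rw [div_le_iff₀ hη'] at hk6'
    linarith only [hk6']
  · exact small_aux hk0 hδ0 (by linarith only [hMR]) hMle hk8 hk10
  · have h3 : Real.log 8192 ≤ 5 * ε / 8 * y := by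
      have := mul_le_mul_of_nonneg_left hk9 (show (0 : ℝ) ≤ 5 * ε / 8 by positivity)
      calc Real.log 8192 = 5 * ε / 8 * (Real.log 8192 * (8 / (5 * ε))) := by field_simp
        _ ≤ _ := this
    calc (8192 : ℝ) = Real.exp (Real.log 8192) := (Real.exp_log (by norm_num)).symm
      _ ≤ _ := Real.exp_le_exp.2 h3

/-- The number of Gaussian integers `z` in a disc of radius `exp (k ^ η)` for which all the
`z + d` with `d` in a set of `k` Gaussian integers of polynomial diameter are prime. -/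
theorem tuple_bound {η A ε : ℝ} (hη0 : 0 < η) (hη1 : η < 1) (hA : 0 ≤ A) (hε : 0 < ε) :
    ∀ᶠ k : ℕ in atTop, ∀ D : Finset GaussianInt, D.card = k →
      (∀ d ∈ D, ∀ d' ∈ D,
        dist (GaussianInt.toComplex d) (GaussianInt.toComplex d') ≤ (k : ℝ) ^ A) →
      ∀ (c : ℂ) (X : Finset GaussianInt),
        (∀ z ∈ X, dist (GaussianInt.toComplex z) c ≤ Real.exp ((k : ℝ) ^ η) ∧
          ∀ d ∈ D, Prime (z + d)) →
        (X.card : ℝ) ≤ Real.exp ((1 + η + ε) * (k : ℝ) ^ η) := by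
  classical
  filter_upwards [params hη0 hη1 hA hε] with k hk
  obtain ⟨M, r, N0, hk11, hM2, hcount, hr1, hrN, hrT, hsave, hsmall, h8192⟩ := hk
  intro D hDc hdiam c X hX
  have hkR : (2 : ℝ) ≤ k := by exact_mod_cast hk11
  have hk0 : (0 : ℝ) < k := by linarith only [hkR]
  have hDne : D.Nonempty := by rw [← Finset.card_pos, hDc]; omega
  set y : ℝ := (k : ℝ) ^ η with hy
  have hy0 : 0 < y := by positivity
  have hMR : (2 : ℝ) ≤ M := by exact_mod_cast hM2
  have hM0 : (0 : ℝ) < M := by linarith only [hMR]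
  -- the two parts
  set X1 := X.filter (fun z => ∀ d ∈ D, (16 * (M : ℤ) ^ 2) < (z + d).norm) with hX1
  have hX1sub : X1 ⊆ X := Finset.filter_subset _ _
  have hexp1 := Real.one_le_exp hy0.le
  have hbig1 : (1 : ℝ) ≤ 2 * Real.exp y := by linarith only [hexp1]
  have hround : ∀ z ∈ X1, |(((z - (⟨round c.re, round c.im⟩ : GaussianInt)).re : ℤ) : ℝ)| ≤
      2 * Real.exp y ∧ |(((z - (⟨round c.re, round c.im⟩ : GaussianInt)).im : ℤ) : ℝ)| ≤
      2 * Real.exp y := by
    intro z hz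
    have h1 := (hX z (hX1sub hz)).1
    have h2 := abs_sub_round c.re
    have h3 := abs_sub_round c.im
    rw [dist_eq_norm] at h1
    have h4 : |(z.re : ℝ) - c.re| ≤ Real.exp y := by
      refine le_trans ?_ h1
      have := Complex.abs_re_le_norm (GaussianInt.toComplex z - c)
      rwa [Complex.sub_re, ← GaussianInt.intCast_re] at this
    have h5 : |(z.im : ℝ) - c.im| ≤ Real.exp y := by
      refine le_trans ?_ h1
      have := Complex.abs_im_le_norm (GaussianInt.toComplex z - c)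
      rwa [Complex.sub_im, ← GaussianInt.intCast_im] at this
    rw [Zsqrtd.re_sub, Zsqrtd.im_sub, Int.cast_sub, Int.cast_sub]
    constructor
    · have e : (z.re : ℝ) - (round c.re : ℝ) = ((z.re : ℝ) - c.re) + (c.re - (round c.re : ℝ)) := by
        ring
      change |(z.re : ℝ) - (round c.re : ℝ)| ≤ _
      rw [e]
      refine (abs_add_le _ _).trans ?_
      linarith only [h4, h2, hexp1]
    · have e : (z.im : ℝ) - (round c.im : ℝ) = ((z.im : ℝ) - c.im) + (c.im - (round c.im : ℝ)) := by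
        ring
      change |(z.im : ℝ) - (round c.im : ℝ)| ≤ _
      rw [e]
      refine (abs_add_le _ _).trans ?_
      linarith only [h5, h3, hexp1]
  have hnorm : ∀ z ∈ D, ∀ w ∈ D, ((z - w).norm : ℝ) ≤ (k : ℝ) ^ (2 * A) := by
    intro z hz w hw
    have h1 := hdiam z hz w hw
    rw [GaussianInt.intCast_real_norm, Complex.normSq_eq_norm_sq, GaussianInt.toComplex_sub,
      ← dist_eq_norm, mul_comm 2 A, Real.rpow_mul hk0.le, Real.rpow_two]
    exact pow_le_pow_left₀ dist_nonneg h1 2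
  have hmain := tuple_core D hDne (B := (k : ℝ) ^ (2 * A))
    (Real.one_le_rpow (by linarith only [hkR]) (by positivity)) hnorm hM2
    (by rw [hDc]; exact hcount) hr1 hrN (T := 2 * Real.exp y) hbig1 hrT
    (⟨round c.re, round c.im⟩ : GaussianInt) X1 hround
    (fun z hz d hd => (hX z (hX1sub hz)).2 d hd) (fun z hz => (Finset.mem_filter.1 hz).2)
  rw [hDc] at hmain
  have hX1card : (X1.card : ℝ) ≤ Real.exp ((1 + η + ε) * y) / 2 := by
    have h1 : (X1.card : ℝ) * Real.exp ((1 - η - 3 * ε / 8) * y) ≤ 1024 * (2 * Real.exp y) ^ 2 := by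
      refine le_trans ?_ hmain
      exact mul_le_mul_of_nonneg_left hsave (Nat.cast_nonneg _)
    have h2 : 1024 * (2 * Real.exp y) ^ 2 = 4096 * Real.exp (2 * y) := by
      have : Real.exp (2 * y) = Real.exp y ^ 2 := by
        rw [two_mul, Real.exp_add, sq]
      rw [this]; ring
    rw [h2] at h1
    have h5 : Real.exp ((1 + η + ε) * y) * Real.exp ((1 - η - 3 * ε / 8) * y) =
        Real.exp (5 * ε / 8 * y) * Real.exp (2 * y) := by
      rw [← Real.exp_add, ← Real.exp_add]; congr 1; ring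
    have h6 : 8192 * Real.exp (2 * y) ≤ Real.exp (5 * ε / 8 * y) * Real.exp (2 * y) :=
      mul_le_mul_of_nonneg_right h8192 (Real.exp_pos _).le
    have h7 : 0 < Real.exp ((1 - η - 3 * ε / 8) * y) := Real.exp_pos _
    have h8 : (X1.card : ℝ) * Real.exp ((1 - η - 3 * ε / 8) * y) ≤
        Real.exp ((1 + η + ε) * y) / 2 * Real.exp ((1 - η - 3 * ε / 8) * y) := by
      linarith only [h1, h5, h6]
    exact le_of_mul_le_mul_right h8 h7
  have hX2card : ((X.filter (fun z => ¬ ∀ d ∈ D, (16 * (M : ℤ) ^ 2) < (z + d).norm)).card : ℝ) ≤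
      Real.exp ((1 + η + ε) * y) / 2 := by
    have h1 : X.filter (fun z => ¬ ∀ d ∈ D, (16 * (M : ℤ) ^ 2) < (z + d).norm) ⊆
        D.biUnion (fun d => (stepBox (4 * M)).image (fun w => w - d)) := by
      intro z hz
      rw [Finset.mem_filter] at hz
      have h2 := hz.2
      push Not at h2
      obtain ⟨d, hd, hzd⟩ := h2
      rw [Finset.mem_biUnion]
      refine ⟨d, hd, ?_⟩
      rw [Finset.mem_image]
      refine ⟨z + d, ?_, by ring⟩
      rw [mem_stepBox]
      have h3 : (z + d).norm = (z + d).re ^ 2 + (z + d).im ^ 2 := by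
        simp only [Zsqrtd.norm]; ring
      rw [h3] at hzd
      have e : ((4 * M : ℕ) : ℤ) ^ 2 = 16 * (M : ℤ) ^ 2 := by push_cast; ring
      constructor
      · refine abs_le_of_sq_le_sq ?_ (Int.natCast_nonneg _)
        rw [e]
        linarith only [hzd, sq_nonneg (z + d).im]
      · refine abs_le_of_sq_le_sq ?_ (Int.natCast_nonneg _)
        rw [e]
        linarith only [hzd, sq_nonneg (z + d).re]
    have h2 := (Finset.card_le_card h1).trans Finset.card_biUnion_le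
    have h3 : ∑ d ∈ D, ((stepBox (4 * M)).image (fun w => w - d)).card ≤
        k * (2 * (4 * M) + 1) ^ 2 := by
      calc ∑ d ∈ D, ((stepBox (4 * M)).image (fun w => w - d)).card
          ≤ ∑ _d ∈ D, (2 * (4 * M) + 1) ^ 2 :=
            Finset.sum_le_sum fun d _ => Finset.card_image_le.trans (card_stepBox _)
        _ = _ := by rw [Finset.sum_const, hDc, smul_eq_mul]
    have h4 : ((X.filter (fun z => ¬ ∀ d ∈ D, (16 * (M : ℤ) ^ 2) < (z + d).norm)).card : ℝ) ≤
        (k : ℝ) * (2 * (4 * M) + 1) ^ 2 := by exact_mod_cast h2.trans h3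
    have h11 : Real.exp y ≤ Real.exp ((1 + η + ε) * y) := by
      refine Real.exp_le_exp.2 ?_
      have := mul_pos hη0 hy0
      have := mul_pos hε hy0
      linarith only [this, mul_pos hη0 hy0]
    linarith only [h4, hsmall, h11]
  have hsplit := Finset.card_filter_add_card_filter_not (s := X)
    (fun z => ∀ d ∈ D, (16 * (M : ℤ) ^ 2) < (z + d).norm)
  have hsplit' : (X1.card : ℝ) +
      ((X.filter (fun z => ¬ ∀ d ∈ D, (16 * (M : ℤ) ^ 2) < (z + d).norm)).card : ℝ) = X.card := by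
    exact_mod_cast hsplit
  linarith only [hsplit', hX1card, hX2card]

end Vale.Agent.P015.H542
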