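import Vale.Agent.P015.H542.Tuple
import Vale.Agent.P015.Cx.Path

/-! Visits of infinite paths to discs, speed and complexity. -/

namespace Vale.Agent.P015.H542

open Finset Vale.Agent.P015 Vale.Agent.P015.Cx Filter Topology

theorem dist_chain {D : ℝ} (g : ℕ → GaussianInt) (n k : ℕ)
    (h : ∀ t < k, dist (GaussianInt.toComplex (g (n + t))) (GaussianInt.toComplex (g (n + t + 1))) ≤
      D) (a b : ℕ) (hab : a ≤ b) (hb : b ≤ k) :
    dist (GaussianInt.toComplex (g (n + a))) (GaussianInt.toComplex (g (n + b))) ≤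
      D * ((b - a : ℕ) : ℝ) := by
  induction b, hab using Nat.le_induction with
  | base => simp
  | succ b hab ih =>
    have h1 := h b (by omega)
    have h2 := dist_triangle (GaussianInt.toComplex (g (n + a))) (GaussianInt.toComplex (g (n + b)))
      (GaussianInt.toComplex (g (n + b + 1)))
    have h3 : ((b + 1 - a : ℕ) : ℝ) = ((b - a : ℕ) : ℝ) + 1 := by
      rw [Nat.sub_add_comm hab]; push_cast; ring
    have h4 := ih (by omega)
    rw [← add_assoc, h3]
    linarith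

/-- **Local form.** If at each time `n ∈ S` the sequence `g` is in a disc of radius `exp (k ^ η)`
and makes a self-avoiding walk of `k` steps of length at most `D` through Gaussian primes, then
`#S` is at most the number of different words of these walks times
`exp ((1 + η + ε) k ^ η)`. -/
theorem local_bound (D : ℝ) {η ε : ℝ} (hη0 : 0 < η) (hη1 : η < 1) (hε : 0 < ε) :
    ∀ᶠ k : ℕ in atTop, ∀ (g : ℕ → GaussianInt) (c : ℂ) (S : Finset ℕ), Set.InjOn g S →
      (∀ n ∈ S, dist (GaussianInt.toComplex (g n)) c ≤ Real.exp ((k : ℝ) ^ η) ∧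
        (∀ t ≤ k, Prime (g (n + t))) ∧ (∀ s ≤ k, ∀ t ≤ k, g (n + s) = g (n + t) → s = t) ∧
        ∀ t < k, dist (GaussianInt.toComplex (g (n + t)))
          (GaussianInt.toComplex (g (n + t + 1))) ≤ D) →
      (S.card : ℝ) ≤ ((stepWord g k '' (S : Set ℕ)).ncard : ℝ) *
        Real.exp ((1 + η + ε) * (k : ℝ) ^ η) := by
  classical
  filter_upwards [tuple_bound (A := 2) hη0 hη1 (by norm_num) hε, eventually_ge_atTop 1,
    eventually_ge_atTop ⌈D⌉₊] with k hk hk1 hkD
  intro g c S hinjS hS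
  have hkR : (1 : ℝ) ≤ k := by exact_mod_cast hk1
  have hDk : D ≤ k := by
    refine (Nat.le_ceil D).trans ?_
    exact_mod_cast hkD
  set E : ℝ := Real.exp ((1 + η + ε) * (k : ℝ) ^ η) with hE
  have hE0 : 0 ≤ E := (Real.exp_pos _).le
  have hfib : ∀ w ∈ S.image (stepWord g k), (S.filter (fun n => stepWord g k n = w)).card ≤
      ⌊E⌋₊ := by
    intro w hw
    rw [Finset.mem_image] at hw
    obtain ⟨n₁, hn₁, hw⟩ := hw
    obtain ⟨-, -, hself, hstep⟩ := hS n₁ hn₁
    set Sw := S.filter (fun n => stepWord g k n = w) with hSw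
    set Dw : Finset GaussianInt := (range k).image (fun t => g (n₁ + t) - g n₁) with hDw
    have hDc : Dw.card = k := by
      rw [hDw, Finset.card_image_of_injOn, Finset.card_range]
      intro a ha b hb hab
      rw [Finset.mem_coe, Finset.mem_range] at ha hb
      exact hself a ha.le b hb.le (sub_left_inj.1 hab)
    have hdist : ∀ a b : ℕ, a ≤ b → b < k →
        dist (GaussianInt.toComplex (g (n₁ + a))) (GaussianInt.toComplex (g (n₁ + b))) ≤
          (k : ℝ) ^ (2 : ℝ) := by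
      intro a b hab hb
      refine (dist_chain g n₁ k hstep a b hab hb.le).trans ?_
      have h2 : ((b - a : ℕ) : ℝ) ≤ k := by
        exact_mod_cast (by omega : b - a ≤ k)
      rw [Real.rpow_two, sq]
      exact mul_le_mul hDk h2 (Nat.cast_nonneg _) (by positivity)
    have hdiam : ∀ d ∈ Dw, ∀ d' ∈ Dw,
        dist (GaussianInt.toComplex d) (GaussianInt.toComplex d') ≤ (k : ℝ) ^ (2 : ℝ) := by
      intro d hd d' hd'
      rw [hDw, Finset.mem_image] at hd hd'
      obtain ⟨a, ha, rfl⟩ := hd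
      obtain ⟨b, hb, rfl⟩ := hd'
      rw [Finset.mem_range] at ha hb
      rw [GaussianInt.toComplex_sub, GaussianInt.toComplex_sub, dist_sub_right]
      rcases le_total a b with h | h
      · exact hdist a b h hb
      · rw [dist_comm]; exact hdist b a h ha
    have hcard : (Sw.image g).card = Sw.card := by
      refine Finset.card_image_of_injOn (hinjS.mono ?_)
      intro n hn
      rw [Finset.mem_coe] at hn ⊢
      exact (Finset.mem_filter.1 hn).1
    have hb := hk Dw hDc hdiam c (Sw.image g) (by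
      intro z hz
      rw [Finset.mem_image] at hz
      obtain ⟨n, hn, rfl⟩ := hz
      rw [hSw, Finset.mem_filter] at hn
      refine ⟨(hS n hn.1).1, ?_⟩
      intro d hd
      rw [hDw, Finset.mem_image] at hd
      obtain ⟨t, ht, rfl⟩ := hd
      rw [Finset.mem_range] at ht
      have h1 : word g k n = word g k n₁ := by
        rw [word_eq_stepWord, word_eq_stepWord, hn.2, hw]
      have h2 := disp_eq_of_word_eq h1 ht.le
      rw [← h2]
      have h3 : g n + (g (n + t) - g n) = g (n + t) := by ring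
      rw [h3]
      exact (hS n hn.1).2.1 t ht.le)
    rw [hcard] at hb
    exact Nat.le_floor hb
  have h1 := Finset.card_le_mul_card_image S ⌊E⌋₊ hfib
  have h2 : (stepWord g k '' (S : Set ℕ)).ncard = (S.image (stepWord g k)).card := by
    rw [← Finset.coe_image, Set.ncard_coe_finset]
  have h3 : (S.card : ℝ) ≤ (⌊E⌋₊ : ℝ) * ((S.image (stepWord g k)).card : ℝ) := by
    exact_mod_cast h1
  have h4 : (⌊E⌋₊ : ℝ) ≤ E := Nat.floor_le hE0
  rw [h2]
  calc (S.card : ℝ) ≤ (⌊E⌋₊ : ℝ) * ((S.image (stepWord g k)).card : ℝ) := h3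
    _ ≤ E * ((S.image (stepWord g k)).card : ℝ) :=
        mul_le_mul_of_nonneg_right h4 (Nat.cast_nonneg _)
    _ = _ := mul_comm _ _

/-- An infinite path of `G_D` visits a disc of radius `exp (k ^ η)` at most
`complexity * exp ((1 + η + ε) k ^ η)` times. -/
theorem visits_bound (D : ℝ) {η ε : ℝ} (hη0 : 0 < η) (hη1 : η < 1) (hε : 0 < ε) :
    ∀ᶠ k : ℕ in atTop, ∀ γ : ℕ → {z : GaussianInt // Prime z}, IsInfinitePath D γ →
      ∀ (n₀ : ℕ) (c : ℂ) (S : Finset ℕ),
        (∀ n ∈ S, n₀ ≤ n ∧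
          dist (GaussianInt.toComplex (γ n).1) c ≤ Real.exp ((k : ℝ) ^ η)) →
        (S.card : ℝ) ≤ (complexity (fun n => (γ n).1) n₀ k : ℝ) *
          Real.exp ((1 + η + ε) * (k : ℝ) ^ η) := by
  filter_upwards [local_bound D hη0 hη1 hε] with k hk
  intro γ hγ n₀ c S hS
  have hginj : Function.Injective (fun n => (γ n).1) := fun a b hab => hγ.1 (Subtype.ext hab)
  have h1 := hk (fun n => (γ n).1) c S hginj.injOn (fun n hn => ⟨(hS n hn).2,
    fun t _ => (γ (n + t)).2, fun s _ t _ hst => by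
      have := hginj hst
      omega, fun t _ => (hγ.2 (n + t)).2⟩)
  refine h1.trans (mul_le_mul_of_nonneg_right ?_ (Real.exp_pos _).le)
  have h2 : (stepWord (fun n => (γ n).1) k '' (S : Set ℕ)).ncard ≤
      complexity (fun n => (γ n).1) n₀ k := by
    unfold complexity
    refine Set.ncard_le_ncard ?_ (finite_words hγ k n₀)
    rintro w ⟨n, hn, rfl⟩
    exact ⟨n, (hS n hn).1, rfl⟩
  exact_mod_cast h2

theorem rpow_small {a b c : ℝ} (hab : a < b) (hc : 0 < c) :
    ∀ᶠ k : ℕ in atTop, (k : ℝ) ^ a ≤ c * (k : ℝ) ^ b := by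
  filter_upwards [const_small (1 / c) (sub_pos.2 hab), eventually_ge_atTop 1] with k hk hk1
  have hk0 : (0 : ℝ) < k := by exact_mod_cast hk1
  have h1 : (k : ℝ) ^ b = (k : ℝ) ^ a * (k : ℝ) ^ (b - a) := by
    rw [← Real.rpow_add hk0]; congr 1; ring
  rw [h1]
  rw [div_le_iff₀ hc] at hk
  have h2 : (0 : ℝ) ≤ (k : ℝ) ^ a := by positivity
  have h3 := mul_le_mul_of_nonneg_left hk h2
  linarith only [h3]

/-- Subexponential complexity forces few visits to every large disc. -/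
theorem visits_of_complexity {D : ℝ} {γ : ℕ → {z : GaussianInt // Prime z}}
    (hγ : IsInfinitePath D γ) {θ : ℝ} (hθ0 : 0 < θ) (hθ1 : θ < 1) (n₀ : ℕ)
    (hcx : ∀ᶠ k : ℕ in atTop, (complexity (fun n => (γ n).1) n₀ k : ℝ) ≤
      Real.exp ((k : ℝ) ^ θ)) {ε : ℝ} (hε : 0 < ε) :
    ∀ᶠ R : ℝ in atTop, ∀ (c : ℂ) (S : Finset ℕ),
      (∀ n ∈ S, n₀ ≤ n ∧ dist (GaussianInt.toComplex (γ n).1) c ≤ R) →
      (S.card : ℝ) ≤ R ^ (1 + θ + ε) := by
  set ρ : ℝ := min (ε / 4) ((1 - θ) / 2) with hρ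
  have hρ0 : 0 < ρ := lt_min (by positivity) (by linarith only [hθ1])
  have hρ1 : ρ ≤ ε / 4 := min_le_left _ _
  have hρ2 : ρ ≤ (1 - θ) / 2 := min_le_right _ _
  set η : ℝ := θ + ρ with hη
  have hη0 : 0 < η := by linarith only [hη, hρ0, hθ0]
  have hη1 : η < 1 := by linarith only [hη, hρ2, hθ1]
  have hev := (visits_bound D hη0 hη1 (ε := ε / 4) (by positivity)).and
    (hcx.and (rpow_small (show θ < η by linarith only [hη, hρ0]) (c := ε / 4) (by positivity)))
  obtain ⟨k₀, hk₀⟩ := Filter.eventually_atTop.1 hev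
  have hlog : ∀ᶠ R : ℝ in atTop, (k₀ : ℝ) ^ η ≤ Real.log R :=
    Real.tendsto_log_atTop.eventually (eventually_ge_atTop _)
  have hlog2 : ∀ᶠ R : ℝ in atTop, 4 * (1 + θ + ε) / ε ≤ Real.log R :=
    Real.tendsto_log_atTop.eventually (eventually_ge_atTop _)
  filter_upwards [hlog, hlog2, eventually_gt_atTop 1] with R hR hR2 hR1
  intro c S hS
  have hR0 : 0 < R := by linarith only [hR1]
  have hlR : 0 < Real.log R := Real.log_pos hR1
  set x : ℝ := Real.log R ^ (1 / η) with hx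
  have hx0 : 0 ≤ x := by positivity
  set k : ℕ := ⌈x⌉₊ with hk
  have hxk : x ≤ k := Nat.le_ceil x
  have hkx : (k : ℝ) < x + 1 := Nat.ceil_lt_add_one hx0
  have hxη : x ^ η = Real.log R := by
    rw [hx, ← Real.rpow_mul hlR.le, one_div, inv_mul_cancel₀ hη0.ne', Real.rpow_one]
  have hkη : Real.log R ≤ (k : ℝ) ^ η := by
    rw [← hxη]
    exact Real.rpow_le_rpow hx0 hxk hη0.le
  have hkη2 : (k : ℝ) ^ η ≤ Real.log R + 1 := by
    calc (k : ℝ) ^ η ≤ (x + 1) ^ η := Real.rpow_le_rpow (Nat.cast_nonneg _) hkx.le hη0.le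
      _ ≤ x ^ η + 1 ^ η := Real.rpow_add_le_add_rpow hx0 zero_le_one hη0.le hη1.le
      _ = _ := by rw [hxη, Real.one_rpow]
  have hkk₀ : k₀ ≤ k := by
    have h1 : (k₀ : ℝ) ≤ x := by
      have h2 := Real.rpow_le_rpow (by positivity) hR (show (0 : ℝ) ≤ 1 / η by positivity)
      rw [← Real.rpow_mul (Nat.cast_nonneg _), mul_one_div, div_self hη0.ne', Real.rpow_one] at h2
      exact h2
    exact_mod_cast h1.trans hxk
  obtain ⟨h1, h2, h3⟩ := hk₀ k hkk₀
  have h4 := h1 γ hγ n₀ c S (fun n hn => ⟨(hS n hn).1, (hS n hn).2.trans (by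
    calc R = Real.exp (Real.log R) := (Real.exp_log hR0).symm
      _ ≤ _ := Real.exp_le_exp.2 hkη)⟩)
  have hkpos : (0 : ℝ) ≤ (k : ℝ) ^ η := by positivity
  calc (S.card : ℝ) ≤ (complexity (fun n => (γ n).1) n₀ k : ℝ) *
          Real.exp ((1 + η + ε / 4) * (k : ℝ) ^ η) := h4
    _ ≤ Real.exp ((k : ℝ) ^ θ) * Real.exp ((1 + η + ε / 4) * (k : ℝ) ^ η) :=
        mul_le_mul_of_nonneg_right h2 (Real.exp_pos _).le
    _ = Real.exp ((k : ℝ) ^ θ + (1 + η + ε / 4) * (k : ℝ) ^ η) := (Real.exp_add _ _).symm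
    _ ≤ Real.exp (Real.log R * (1 + θ + ε)) := by
        refine Real.exp_le_exp.2 ?_
        have h5 : (k : ℝ) ^ θ + (1 + η + ε / 4) * (k : ℝ) ^ η ≤
            (1 + θ + 3 * ε / 4) * (k : ℝ) ^ η := by
          have h6 : (1 + η + ε / 4) * (k : ℝ) ^ η ≤ (1 + θ + ε / 4 + ε / 4) * (k : ℝ) ^ η :=
            mul_le_mul_of_nonneg_right (by linarith only [hη, hρ1]) hkpos
          linarith only [h3, h6]
        refine h5.trans ?_
        have h7 : (1 + θ + 3 * ε / 4) * (k : ℝ) ^ η ≤ (1 + θ + 3 * ε / 4) * (Real.log R + 1) :=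
          mul_le_mul_of_nonneg_left hkη2 (by positivity)
        refine h7.trans ?_
        rw [div_le_iff₀ hε] at hR2
        linarith only [hR2, hε]
    _ = R ^ (1 + θ + ε) := by rw [Real.rpow_def_of_pos hR0]

/-- A lower bound for the speed of a path of small complexity. -/
theorem speed_of_complexity {D : ℝ} {γ : ℕ → {z : GaussianInt // Prime z}}
    (hγ : IsInfinitePath D γ) {θ β : ℝ} (hθ0 : 0 < θ) (hθ1 : θ < 1) (hβ : 0 < β)
    (hβθ : β * (1 + θ) < 1) (n₀ : ℕ)
    (hcx : ∀ᶠ k : ℕ in atTop, (complexity (fun n => (γ n).1) n₀ k : ℝ) ≤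
      Real.exp ((k : ℝ) ^ θ)) :
    ∀ᶠ n : ℕ in atTop, ∃ m ≤ n, (n : ℝ) ^ β < ‖GaussianInt.toComplex (γ m).1‖ := by
  set ε : ℝ := (1 - β * (1 + θ)) / (2 * β) with hε
  have hε0 : 0 < ε := by
    rw [hε]
    have : 0 < 1 - β * (1 + θ) := by linarith only [hβθ]
    positivity
  have hexp : β * (1 + θ + ε) < 1 := by
    have h1 : β * ε = (1 - β * (1 + θ)) / 2 := by rw [hε]; field_simp
    have : β * (1 + θ + ε) = β * (1 + θ) + β * ε := by ring
    rw [this, h1]
    linarith only [hβθ]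
  have hv := visits_of_complexity hγ hθ0 hθ1 n₀ hcx hε0
  have hn : Tendsto (fun n : ℕ => (n : ℝ) ^ β) atTop atTop :=
    (tendsto_rpow_atTop hβ).comp (tendsto_natCast_atTop_atTop (R := ℝ))
  filter_upwards [hn.eventually hv, rpow_small hexp (c := 1 / 2) (by norm_num),
    eventually_ge_atTop (2 * n₀ + 1)] with n h1 h2 h3
  by_contra hcon
  push Not at hcon
  have h4 := h1 0 (Finset.Icc n₀ n) (by
    intro m hm
    rw [Finset.mem_Icc] at hm
    refine ⟨hm.1, ?_⟩
    rw [dist_zero_right]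
    exact hcon m hm.2)
  rw [Nat.card_Icc] at h4
  have hnR : (0 : ℝ) ≤ n := Nat.cast_nonneg n
  rw [← Real.rpow_mul hnR] at h4
  rw [Real.rpow_one] at h2
  have h5 : ((n + 1 - n₀ : ℕ) : ℝ) ≤ 1 / 2 * n := h4.trans h2
  have h6 : (n : ℝ) < 2 * ((n + 1 - n₀ : ℕ) : ℝ) := by
    exact_mod_cast (by omega : n < 2 * (n + 1 - n₀))
  linarith only [h5, h6]

/-- The complexity of a slow path is large at all large lengths. -/
theorem complexity_of_speed {D : ℝ} {γ : ℕ → {z : GaussianInt // Prime z}}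
    (hγ : IsInfinitePath D γ) {K θ β : ℝ} (hθ0 : 0 < θ) (hθ1 : θ < 1) (hβ : 0 < β)
    (hβθ : β * (1 + θ) < 1)
    (hspeed : ∀ᶠ n : ℕ in atTop, ‖GaussianInt.toComplex (γ n).1‖ ≤ K * (n : ℝ) ^ β) (n₀ : ℕ) :
    ∀ᶠ k : ℕ in atTop, Real.exp ((k : ℝ) ^ θ) < (complexity (fun n => (γ n).1) n₀ k : ℝ) := by
  obtain ⟨n₁, hn₁⟩ := Filter.eventually_atTop.1 hspeed
  set K' : ℝ := max K 1 with hK'
  have hK'1 : 1 ≤ K' := le_max_right _ _
  have hK'0 : 0 < K' := by linarith only [hK'1]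
  set ω : ℝ := (1 / β - (1 + θ)) / 4 with hω
  have hω0 : 0 < ω := by
    have : 1 + θ < 1 / β := by
      rw [lt_div_iff₀ hβ]
      linarith only [hβθ]
    linarith only [hω, this]
  set ρ : ℝ := min ω ((1 - θ) / 2) with hρ
  have hρ0 : 0 < ρ := lt_min hω0 (by linarith only [hθ1])
  have hρ1 : ρ ≤ ω := min_le_left _ _
  have hρ2 : ρ ≤ (1 - θ) / 2 := min_le_right _ _
  set η : ℝ := θ + ρ with hη
  have hη0 : 0 < η := by linarith only [hη, hρ0, hθ0]
  have hη1 : η < 1 := by linarith only [hη, hρ2, hθ1]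
  set n₂ : ℕ := max n₀ n₁ with hn₂
  filter_upwards [visits_bound D hη0 hη1 hω0,
    rpow_small (show θ < η by linarith only [hη, hρ0]) hω0,
    const_small (Real.log (K' ^ (1 / β) * (n₂ + 3)) / ω) hη0, eventually_ge_atTop 1]
    with k hk hk2 hk3 hk1
  by_contra hcon
  push Not at hcon
  have hkR : (1 : ℝ) ≤ k := by exact_mod_cast hk1
  set y : ℝ := (k : ℝ) ^ η with hy
  have hy0 : 0 < y := by positivity
  set N : ℝ := (Real.exp y / K') ^ (1 / β) with hN
  have hN0 : 0 ≤ N := by positivity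
  have h1 := hk γ hγ n₀ 0 (Finset.Ico n₂ ⌈N⌉₊) (by
    intro n hn
    rw [Finset.mem_Ico] at hn
    refine ⟨(le_max_left _ _).trans hn.1, ?_⟩
    rw [dist_zero_right]
    have h2 := hn₁ n ((le_max_right _ _).trans hn.1)
    refine h2.trans ?_
    have h3 : (n : ℝ) < N := Nat.lt_ceil.1 hn.2
    have h4 : (n : ℝ) ^ β ≤ Real.exp y / K' := by
      calc (n : ℝ) ^ β ≤ N ^ β := Real.rpow_le_rpow (Nat.cast_nonneg _) h3.le hβ.le
        _ = Real.exp y / K' := by
            rw [hN, ← Real.rpow_mul (by positivity), one_div, inv_mul_cancel₀ hβ.ne',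
              Real.rpow_one]
    have h5 : (0 : ℝ) ≤ (n : ℝ) ^ β := by positivity
    calc K * (n : ℝ) ^ β ≤ K' * (n : ℝ) ^ β := mul_le_mul_of_nonneg_right (le_max_left _ _) h5
      _ ≤ K' * (Real.exp y / K') := mul_le_mul_of_nonneg_left h4 hK'0.le
      _ = Real.exp y := by field_simp)
  rw [Nat.card_Ico] at h1
  have h2 : N - n₂ ≤ ((⌈N⌉₊ - n₂ : ℕ) : ℝ) := by
    have h3 : N ≤ ⌈N⌉₊ := Nat.le_ceil N
    have h4 : ((⌈N⌉₊ : ℕ) : ℝ) ≤ ((⌈N⌉₊ - n₂ : ℕ) : ℝ) + n₂ := by
      exact_mod_cast (by omega : ⌈N⌉₊ ≤ (⌈N⌉₊ - n₂) + n₂)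
    linarith only [h3, h4]
  have h3 : N - n₂ ≤ Real.exp ((1 + η + 2 * ω) * y) := by
    calc N - n₂ ≤ _ := h2
      _ ≤ _ := h1
      _ ≤ Real.exp ((k : ℝ) ^ θ) * Real.exp ((1 + η + ω) * y) :=
          mul_le_mul_of_nonneg_right hcon (Real.exp_pos _).le
      _ = Real.exp ((k : ℝ) ^ θ + (1 + η + ω) * y) := (Real.exp_add _ _).symm
      _ ≤ _ := by
          refine Real.exp_le_exp.2 ?_
          linarith only [hk2]
  set C : ℝ := K' ^ (1 / β) with hC
  have hC1 : 1 ≤ C := Real.one_le_rpow hK'1 (by positivity)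
  have hC0 : 0 < C := by linarith only [hC1]
  have hNeq : N = Real.exp (y * (1 / β)) / C := by
    rw [hN, Real.div_rpow (Real.exp_pos _).le hK'0.le, hC, ← Real.exp_mul]
  have h4 : (1 + η + 2 * ω) * y + ω * y ≤ y * (1 / β) := by
    have h5 : 1 + η + 3 * ω ≤ 1 / β := by linarith only [hη, hρ1, hω]
    have h6 := mul_le_mul_of_nonneg_right h5 hy0.le
    linarith only [h6]
  have h5 : C * (n₂ + 3) ≤ Real.exp (ω * y) := by
    rw [div_le_iff₀ hω0] at hk3
    have h6 : (0 : ℝ) < C * (n₂ + 3) := by positivity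
    calc C * (n₂ + 3) = Real.exp (Real.log (C * (n₂ + 3))) := (Real.exp_log h6).symm
      _ ≤ _ := Real.exp_le_exp.2 (by linarith only [hk3])
  set F : ℝ := Real.exp ((1 + η + 2 * ω) * y) with hF
  have hF1 : 1 ≤ F := Real.one_le_exp (by positivity)
  have h6 : F * (C * (n₂ + 3)) ≤ Real.exp (y * (1 / β)) := by
    calc F * (C * (n₂ + 3)) ≤ F * Real.exp (ω * y) :=
          mul_le_mul_of_nonneg_left h5 (by linarith only [hF1])
      _ = Real.exp ((1 + η + 2 * ω) * y + ω * y) := by rw [hF, ← Real.exp_add]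
      _ ≤ _ := Real.exp_le_exp.2 h4
  have h7 : F * (n₂ + 3) ≤ N := by
    rw [hNeq, le_div_iff₀ hC0]
    calc F * (n₂ + 3) * C = F * (C * (n₂ + 3)) := by ring
      _ ≤ _ := h6
  have h8 : (0 : ℝ) ≤ n₂ := Nat.cast_nonneg _
  have h9 : (n₂ : ℝ) ≤ F * n₂ := le_mul_of_one_le_left h8 hF1
  linarith only [h3, h7, h9, hF1]

end Vale.Agent.P015.H542
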