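import Vale.Agent.P015.Cx.Sieve
import Mathlib.Analysis.SpecialFunctions.Complex.CircleAddChar

/-! Nonnegative weights on `(ℤ/m)²` whose Fourier transform lives in a small box. -/

namespace Vale.Agent.P015.H542

open Finset Vale.Agent.P015

/-- the standard character of `ZMod m` -/
noncomputable def chi (m : ℕ) [NeZero m] : AddChar (ZMod m) ℂ := ZMod.stdAddChar

theorem chi_inj (m : ℕ) [NeZero m] : Function.Injective (chi m) := ZMod.injective_stdAddChar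

/-- the box -/
def bx (h : ℕ) : Finset (ℕ × ℕ) := range h ×ˢ range h

/-- the exponential sum over the box -/
noncomputable def esum (m h : ℕ) [NeZero m] (z : ZMod m × ZMod m) : ℂ :=
  ∑ y ∈ bx h, chi m (z.1 * y.1 + z.2 * y.2)

/-- the weight -/
noncomputable def wt (m h : ℕ) [NeZero m] (z : ZMod m × ZMod m) : ℝ := ‖esum m h z‖ ^ 2

theorem wt_nonneg (m h : ℕ) [NeZero m] (z : ZMod m × ZMod m) : 0 ≤ wt m h z := sq_nonneg _

theorem wt_expand (m h : ℕ) [NeZero m] (z : ZMod m × ZMod m) :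
    ((wt m h z : ℝ) : ℂ) = ∑ y ∈ bx h, ∑ y' ∈ bx h,
      chi m (z.1 * ((y.1 : ZMod m) - y'.1) + z.2 * ((y.2 : ZMod m) - y'.2)) := by
  unfold wt
  push_cast
  rw [← Complex.mul_conj', esum, map_sum, Finset.sum_mul_sum]
  refine Finset.sum_congr rfl fun y _ => Finset.sum_congr rfl fun y' _ => ?_
  rw [← AddChar.map_neg_eq_conj, ← AddChar.map_add_eq_mul]
  congr 1
  ring

theorem chi_sum_zero (m : ℕ) [NeZero m] (Φ : ZMod m × ZMod m → ℂ) (e τ : ZMod m × ZMod m)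
    (hτ : ∀ z, Φ (z + τ) = Φ z) (hne : τ.1 * e.1 + τ.2 * e.2 ≠ 0) :
    ∑ z, chi m (z.1 * e.1 + z.2 * e.2) * Φ z = 0 := by
  have h1 : ∑ z, chi m (z.1 * e.1 + z.2 * e.2) * Φ z =
      chi m (τ.1 * e.1 + τ.2 * e.2) * ∑ z, chi m (z.1 * e.1 + z.2 * e.2) * Φ z := by
    rw [Finset.mul_sum]
    rw [← Equiv.sum_comp (Equiv.addRight τ)
      (fun z : ZMod m × ZMod m => chi m (z.1 * e.1 + z.2 * e.2) * Φ z)]
    refine Finset.sum_congr rfl fun z _ => ?_
    simp only [Equiv.coe_addRight, Prod.fst_add, Prod.snd_add, hτ]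
    rw [← mul_assoc, ← AddChar.map_add_eq_mul]
    congr 2
    ring
  have h2 : chi m (τ.1 * e.1 + τ.2 * e.2) ≠ 1 := by
    intro h
    rw [← AddChar.map_zero_eq_one (chi m)] at h
    exact hne (chi_inj m h)
  have h3 : (1 - chi m (τ.1 * e.1 + τ.2 * e.2)) *
      ∑ z, chi m (z.1 * e.1 + z.2 * e.2) * Φ z = 0 := by
    rw [sub_mul, one_mul, ← h1, sub_self]
  rcases mul_eq_zero.1 h3 with h | h
  · exact absurd (sub_eq_zero.1 h).symm h2
  · exact h

/-- The weight is equidistributed against all functions with enough translation symmetries. -/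
theorem weight_sum (m h : ℕ) [NeZero m] (Φ : ZMod m × ZMod m → ℝ)
    (hΦ : ∀ d : ℤ × ℤ, |d.1| < h → |d.2| < h → d ≠ 0 →
      ∃ τ : ZMod m × ZMod m, (∀ z, Φ (z + τ) = Φ z) ∧ τ.1 * d.1 + τ.2 * d.2 ≠ 0) :
    ∑ z, wt m h z * Φ z = (h : ℝ) ^ 2 * ∑ z, Φ z := by
  have key : ∀ y ∈ bx h, ∀ y' ∈ bx h,
      ∑ z, chi m (z.1 * ((y.1 : ZMod m) - y'.1) + z.2 * ((y.2 : ZMod m) - y'.2)) *
        ((Φ z : ℝ) : ℂ) = if y = y' then ∑ z, ((Φ z : ℝ) : ℂ) else 0 := by
    intro y hy y' hy'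
    split_ifs with hyy
    · subst hyy
      refine Finset.sum_congr rfl fun z _ => ?_
      rw [sub_self, sub_self, mul_zero, mul_zero, add_zero, AddChar.map_zero_eq_one, one_mul]
    · unfold bx at hy hy'
      rw [Finset.mem_product, Finset.mem_range, Finset.mem_range] at hy hy'
      obtain ⟨τ, h1, h2⟩ := hΦ ((y.1 : ℤ) - y'.1, (y.2 : ℤ) - y'.2)
        (by simp only; rw [abs_lt]; omega) (by simp only; rw [abs_lt]; omega) (by
          intro h0
          apply hyy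
          rw [Prod.mk_eq_zero] at h0
          ext
          · omega
          · omega)
      have := chi_sum_zero m (fun z => ((Φ z : ℝ) : ℂ))
        (((y.1 : ZMod m) - y'.1), ((y.2 : ZMod m) - y'.2)) τ (fun z => by simp only [h1]) (by
          push_cast at h2
          exact h2)
      exact this
  have main : ((∑ z, wt m h z * Φ z : ℝ) : ℂ) = (((h : ℝ) ^ 2 * ∑ z, Φ z : ℝ) : ℂ) := by
    push_cast
    calc ∑ z, ((wt m h z : ℝ) : ℂ) * ((Φ z : ℝ) : ℂ)
        = ∑ z, ∑ y ∈ bx h, ∑ y' ∈ bx h,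
          chi m (z.1 * ((y.1 : ZMod m) - y'.1) + z.2 * ((y.2 : ZMod m) - y'.2)) *
            ((Φ z : ℝ) : ℂ) := by
          refine Finset.sum_congr rfl fun z _ => ?_
          rw [wt_expand, Finset.sum_mul]
          exact Finset.sum_congr rfl fun y _ => Finset.sum_mul _ _ _
      _ = ∑ y ∈ bx h, ∑ y' ∈ bx h, ∑ z,
          chi m (z.1 * ((y.1 : ZMod m) - y'.1) + z.2 * ((y.2 : ZMod m) - y'.2)) *
            ((Φ z : ℝ) : ℂ) := by
          rw [Finset.sum_comm]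
          exact Finset.sum_congr rfl fun y _ => Finset.sum_comm
      _ = ∑ y ∈ bx h, ∑ y' ∈ bx h, if y = y' then ∑ z, ((Φ z : ℝ) : ℂ) else 0 :=
          Finset.sum_congr rfl fun y hy => Finset.sum_congr rfl fun y' hy' => key y hy y' hy'
      _ = ∑ y ∈ bx h, ∑ z, ((Φ z : ℝ) : ℂ) := by
          refine Finset.sum_congr rfl fun y hy => ?_
          rw [Finset.sum_ite_eq, if_pos hy]
      _ = (h : ℂ) ^ 2 * ∑ z, ((Φ z : ℝ) : ℂ) := by
          rw [Finset.sum_const, nsmul_eq_mul]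
          unfold bx
          rw [Finset.card_product, Finset.card_range]
          push_cast
          ring
  exact_mod_cast main

theorem chi_re (m : ℕ) [NeZero m] (h : ℕ) {T : ℝ} (hT : 8 * T * h ≤ m) {x : ℤ}
    (hx : |(x : ℝ)| ≤ T) {y : ℕ} (hy : y < h) :
    Real.sqrt 2 / 2 ≤ (chi m ((x : ZMod m) * (y : ZMod m))).re := by
  have hm : (0 : ℝ) < m := by exact_mod_cast Nat.pos_of_ne_zero (NeZero.ne m)
  have e1 : ((x : ZMod m) * (y : ZMod m)) = (((x * y : ℤ)) : ZMod m) := by push_cast; ring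
  rw [e1, chi, ZMod.stdAddChar_coe]
  have e2 : (2 * Real.pi * Complex.I * ((x * y : ℤ) : ℂ) / (m : ℂ)) =
      ((2 * Real.pi * (x * y) / m : ℝ) : ℂ) * Complex.I := by
    push_cast
    ring
  rw [e2, Complex.exp_ofReal_mul_I_re]
  have h1 : |2 * Real.pi * (x * y) / m| ≤ Real.pi / 4 := by
    rw [abs_div, abs_mul, abs_mul, abs_mul, abs_of_pos hm, abs_of_pos Real.pi_pos,
      abs_of_pos (by norm_num : (0 : ℝ) < 2), div_le_iff₀ hm]
    have hyr : |(y : ℝ)| ≤ h := by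
      rw [abs_of_nonneg (Nat.cast_nonneg y)]
      exact_mod_cast hy.le
    have h2 : |(x : ℝ)| * |(y : ℝ)| ≤ T * h :=
      mul_le_mul hx hyr (abs_nonneg _) ((abs_nonneg _).trans hx)
    nlinarith [Real.pi_pos, mul_le_mul_of_nonneg_left h2 Real.pi_pos.le,
      mul_le_mul_of_nonneg_left hT Real.pi_pos.le]
  rw [← Real.cos_abs, ← Real.cos_pi_div_four]
  refine Real.cos_le_cos_of_nonneg_of_le_pi (abs_nonneg _) ?_ h1
  linarith [Real.pi_pos]

theorem esum_eq (m h : ℕ) [NeZero m] (z : ZMod m × ZMod m) :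
    esum m h z = (∑ y ∈ range h, chi m (z.1 * y)) * ∑ y ∈ range h, chi m (z.2 * y) := by
  unfold esum bx
  rw [Finset.sum_product, Finset.sum_mul_sum]
  refine Finset.sum_congr rfl fun y _ => Finset.sum_congr rfl fun y' _ => ?_
  rw [← AddChar.map_add_eq_mul]

theorem norm_sum_ge (m : ℕ) [NeZero m] (h : ℕ) {T : ℝ} (hT : 8 * T * h ≤ m) {x : ℤ}
    (hx : |(x : ℝ)| ≤ T) :
    (h : ℝ) * (Real.sqrt 2 / 2) ≤ ‖∑ y ∈ range h, chi m ((x : ZMod m) * (y : ZMod m))‖ := by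
  refine le_trans ?_ (Complex.re_le_norm _)
  rw [Complex.re_sum]
  calc (h : ℝ) * (Real.sqrt 2 / 2) = ∑ y ∈ range h, (Real.sqrt 2 / 2) := by
        rw [Finset.sum_const, Finset.card_range, nsmul_eq_mul]
    _ ≤ _ := Finset.sum_le_sum fun y hy => chi_re m h hT hx (Finset.mem_range.1 hy)

/-- The weight is large on a small box. -/
theorem wt_ge (m : ℕ) [NeZero m] (h : ℕ) {T : ℝ} (hT : 8 * T * h ≤ m) {a b : ℤ}
    (ha : |(a : ℝ)| ≤ T) (hb : |(b : ℝ)| ≤ T) :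
    (h : ℝ) ^ 4 / 4 ≤ wt m h ((a : ZMod m), (b : ZMod m)) := by
  unfold wt
  rw [esum_eq, norm_mul, mul_pow]
  have h1 := norm_sum_ge m h hT ha
  have h2 := norm_sum_ge m h hT hb
  have hs : Real.sqrt 2 ^ 2 = 2 := Real.sq_sqrt (by norm_num)
  have h0 : (0 : ℝ) ≤ (h : ℝ) * (Real.sqrt 2 / 2) := by positivity
  have e : ((h : ℝ) * (Real.sqrt 2 / 2)) ^ 2 = (h : ℝ) ^ 2 / 2 := by
    rw [mul_pow, div_pow, hs]; ring
  have h3 := pow_le_pow_left₀ h0 h1 2
  have h4 := pow_le_pow_left₀ h0 h2 2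
  rw [e] at h3 h4
  calc (h : ℝ) ^ 4 / 4 = ((h : ℝ) ^ 2 / 2) * ((h : ℝ) ^ 2 / 2) := by ring
    _ ≤ _ := mul_le_mul h3 h4 (by positivity) (by positivity)

end Vale.Agent.P015.H542
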